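import Vale.Agent.P284Z.G.Sk
import Vale.Agent.P277.H762.L1a
import Vale.Agent.P298.H983.Null
import Vale.Agent.P268.Hol

/-!
# P284Z, block G: families of analytic functions have locally the zeros of a finite subfamily
-/

open scoped Topology Polynomial
open Filter Set Metric Polynomial

noncomputable section

namespace Vale.Agent.P284Z.G

variable {Y : Type} [NormedAddCommGroup Y] [NormedSpace ℂ Y]

/-- the statement at the point `p` -/
def SNat (p : Y) : Prop :=
  ∀ (ι : Type) (g : ι → Y → ℂ) (Ω : Set Y), Ω ∈ 𝓝 p → (∀ i, AnalyticOnNhd ℂ (g i) Ω) →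
    ∃ T : Finset ι, ∀ᶠ y in 𝓝 p, (∀ i ∈ T, g i y = 0) → ∀ i, g i y = 0

/-- the version for vectors -/
theorem snv {p : Y} (h : SNat p) (b : ℕ) : ∀ (ι : Type) (g : ι → Fin b → Y → ℂ) (Ω : Set Y),
    Ω ∈ 𝓝 p → (∀ i k, AnalyticOnNhd ℂ (g i k) Ω) → ∃ T : Finset ι, ∀ᶠ y in 𝓝 p, ∀ w : Fin b → ℂ,
      (∀ i ∈ T, ∑ k, w k * g i k y = 0) → ∀ i, ∑ k, w k * g i k y = 0 := by
  classical
  induction b with
  | zero => exact fun ι g Ω _ _ => ⟨∅, Eventually.of_forall fun y w _ i => by simp⟩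
  | succ b ih =>
    intro ι g Ω hΩ hg
    obtain ⟨T1, h1⟩ := h ι (fun i => g i 0) Ω hΩ fun i => hg i 0
    obtain ⟨T2, h2⟩ := ih ι (fun i k => g i k.succ) Ω hΩ fun i k => hg i k.succ
    obtain ⟨T3, h3⟩ := ih (ι × ι) (fun i k y => g i.2 0 y * g i.1 k.succ y -
      g i.1 0 y * g i.2 k.succ y) Ω hΩ fun i k =>
        ((hg _ _).mul (hg _ _)).sub ((hg _ _).mul (hg _ _))
    refine ⟨T1 ∪ T2 ∪ (T3.image Prod.fst ∪ T3.image Prod.snd), ?_⟩
    filter_upwards [h1, h2, h3] with y h1 h2 h3 w hw i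
    simp only [Fin.sum_univ_succ] at hw ⊢
    have key : ∀ i i' : ι, ∑ k : Fin b, w k.succ * (g i' 0 y * g i k.succ y -
        g i 0 y * g i' k.succ y) = g i' 0 y * ∑ k : Fin b, w k.succ * g i k.succ y -
          g i 0 y * ∑ k : Fin b, w k.succ * g i' k.succ y := by
      intro i i'
      rw [Finset.mul_sum, Finset.mul_sum, ← Finset.sum_sub_distrib]
      exact Finset.sum_congr rfl fun k _ => by ring
    by_cases hA : ∀ j ∈ T1, g j 0 y = 0
    · have h4 := h1 hA
      rw [h4 i, mul_zero, zero_add]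
      refine h2 (fun k => w k.succ) (fun j hj => ?_) i
      have := hw j (by simp [hj])
      rwa [h4 j, mul_zero, zero_add] at this
    · push Not at hA
      obtain ⟨j, hj, hj0⟩ := hA
      have h4 := h3 (fun k => w k.succ) (fun q hq => by
        have e1 := hw q.1 (by
          simp only [Finset.mem_union]; exact .inr (.inl (Finset.mem_image_of_mem _ hq)))
        have e2 := hw q.2 (by
          simp only [Finset.mem_union]; exact .inr (.inr (Finset.mem_image_of_mem _ hq)))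
        rw [key]
        linear_combination g q.2 0 y * e1 - g q.1 0 y * e2) (i, j)
      rw [key] at h4
      have e2 := hw j (by simp [hj])
      refine mul_left_cancel₀ hj0 ?_
      simp only at h4
      linear_combination h4 + g i 0 y * e2

/-- the induction step -/
theorem sn_step [FiniteDimensional ℂ Y] {p : Y} (h : SNat p) {ι : Type} {g : ι → ℂ × Y → ℂ}
    {Ω : Set (ℂ × Y)} (hΩ : Ω ∈ 𝓝 ((0 : ℂ), p)) (hg : ∀ i, AnalyticOnNhd ℂ (g i) Ω) (j : ι)
    (hj : ¬ ∀ᶠ t in 𝓝 (0 : ℂ), g j (t, p) = 0) :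
    ∃ T : Finset ι, ∀ᶠ z in 𝓝 ((0 : ℂ), p), (∀ i ∈ T, g i z = 0) → ∀ i, g i z = 0 := by
  classical
  have hgj : AnalyticAt ℂ (g j) (0, p) := hg j _ (mem_of_mem_nhds hΩ)
  obtain ⟨b, u, hu, hu0, hb⟩ := P298.H983.exists_weier_form (f := fun t => g j (t, p))
    (AnalyticAt.comp_of_eq hgj (analyticAt_id.prod analyticAt_const) rfl) hj
  obtain ⟨P, v, hP, hPa, hP1, hva, -, hPv⟩ := P267.H823.weierstrass hgj hu hu0 hb
  obtain ⟨ρ, hρ, hball⟩ := Metric.eventually_nhds_iff_ball.1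
    (hPv.and (hva.eventually_analyticAt.and hΩ))
  obtain ⟨δ, hδ, hroot⟩ := Metric.eventually_nhds_iff_ball.1
    ((P277.H762.eventually_root_small hP (fun i => (hPa i).continuousAt) hP1
      (half_pos (half_pos hρ))).and (ball_mem_nhds p hρ))
  have hmem : ∀ ζ : ℂ, ‖ζ‖ < ρ → ∀ y ∈ ball p δ, ((ζ, y) : ℂ × Y) ∈ ball ((0 : ℂ), p) ρ := by
    intro ζ hζ y hy
    rw [mem_ball, Prod.dist_eq, max_lt_iff]
    exact ⟨by simpa using hζ, (hroot y hy).2⟩
  set W : Set ℂ := {ζ | ρ / 2 / 2 < ‖ζ‖ ∧ ‖ζ‖ < ρ} with hW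
  have hWo : IsOpen W :=
    (isOpen_lt continuous_const continuous_norm).inter (isOpen_lt continuous_norm continuous_const)
  have hsW : sphere (0 : ℂ) (ρ / 2) ⊆ W := fun ζ hζ => by
    rw [mem_sphere_zero_iff_norm] at hζ
    exact ⟨by linarith, by linarith⟩
  have hne : ∀ ζ ∈ W, ∀ y ∈ ball p δ, (P y).eval ζ ≠ 0 := fun ζ hζ y hy h0 =>
    lt_asymm ((hroot y hy).1 ζ h0) hζ.1
  set G : ι → ℕ → Y × ℂ → ℂ := fun i k q =>
    g i (q.2, q.1) * q.2 ^ k / (g j (q.2, q.1) * v (q.2, q.1)) with hG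
  have hGa : ∀ i k, ∀ q ∈ ball p δ ×ˢ W, AnalyticAt ℂ (G i k) q := by
    intro i k q hq
    obtain ⟨e1, e2, e3⟩ := hball _ (hmem _ hq.2.2 _ hq.1)
    have hs : AnalyticAt ℂ (fun q : Y × ℂ => ((q.2, q.1) : ℂ × Y)) q :=
      analyticAt_snd.prod analyticAt_fst
    refine (((hg i _ e3).comp_of_eq hs rfl).mul (analyticAt_snd.pow k)).div
      (((hg j _ e3).comp_of_eq hs rfl).mul (e2.comp_of_eq hs rfl)) ?_
    exact fun h0 => hne _ hq.2 _ hq.1 (e1.symm.trans h0)
  set m : ι → Fin b → Y → ℂ := fun i k y => ∮ ζ in C(0, ρ / 2), G i k (y, ζ) with hm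
  have hma : ∀ i k, AnalyticOnNhd ℂ (m i k) (ball p δ) := fun i k =>
    P268.analyticOnNhd_of_differentiableOn isOpen_ball
      (P268.differentiableOn_circleIntegral (half_pos hρ).le isOpen_ball hWo hsW
        fun q hq => (hGa i k q hq).differentiableAt.differentiableWithinAt)
  obtain ⟨T, hT⟩ := snv h b ι m _ (ball_mem_nhds p hδ) hma
  refine ⟨insert j T, ?_⟩
  have t1 : Tendsto (Prod.snd : ℂ × Y → Y) (𝓝 ((0 : ℂ), p)) (𝓝 p) := continuous_snd.tendsto _
  have t2 : Tendsto (Prod.fst : ℂ × Y → ℂ) (𝓝 ((0 : ℂ), p)) (𝓝 0) := continuous_fst.tendsto _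
  filter_upwards [t1.eventually hT, t1.eventually (ball_mem_nhds p hδ),
    t2.eventually (ball_mem_nhds (0 : ℂ) (half_pos hρ))] with z hz hy ht h0
  obtain ⟨t, y⟩ := z
  simp only at hz hy ht
  have ht' : ‖t‖ < ρ := by
    rw [dist_zero_right] at ht
    linarith
  have hr : (P y).IsRoot t := by
    have := (hball _ (hmem t ht' y hy)).1
    rw [h0 j (Finset.mem_insert_self _ _), zero_mul] at this
    exact this.symm
  set Q : ℂ[X] := P y /ₘ (X - C t) with hQ
  have hPQ : (X - C t) * Q = P y := mul_divByMonic_eq_iff_isRoot.2 hr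
  have hdeg : Q.natDegree < b := by
    have h1 : 0 < (P y).natDegree :=
      natDegree_pos_iff_degree_pos.2 (degree_pos_of_root (hP y).1.ne_zero hr)
    rw [hQ, natDegree_divByMonic _ (monic_X_sub_C t), natDegree_X_sub_C]
    rw [(hP y).2] at h1 ⊢
    omega
  have key : ∀ i, ∑ k : Fin b, Q.coeff k * m i k y = (2 * Real.pi * Complex.I) * g i (t, y) := by
    intro i
    have hd : DifferentiableOn ℂ (fun ζ => g i (ζ, y)) (closedBall 0 (ρ / 2)) := by
      intro ζ hζ
      rw [mem_closedBall_zero_iff] at hζ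
      exact ((hg i _ (hball _ (hmem ζ (by linarith) y hy)).2.2).comp_of_eq
        (analyticAt_id.prod analyticAt_const) rfl).differentiableAt.differentiableWithinAt
    have hc : ∀ k : ℕ, ContinuousOn (fun ζ => Q.coeff k * G i k (y, ζ)) (sphere 0 (ρ / 2)) := by
      intro k ζ hζ
      exact (continuousAt_const.mul ((hGa i k (y, ζ) ⟨hy, hsW hζ⟩).comp_of_eq
        (analyticAt_const.prod analyticAt_id) rfl).continuousAt).continuousWithinAt
    rw [← smul_eq_mul, ← hd.circleIntegral_sub_inv_smul ht]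
    simp only [hm, ← circleIntegral.integral_const_mul]
    rw [← circleIntegral.integral_fun_sum fun (k : Fin b) _ =>
      (hc k).circleIntegrable (half_pos hρ).le]
    refine circleIntegral.integral_congr (half_pos hρ).le fun ζ hζ => ?_
    have e1 := (hball _ (hmem ζ (hsW hζ).2 y hy)).1
    have e2 := hne ζ (hsW hζ) y hy
    simp only [hG, e1, smul_eq_mul]
    rw [← hPQ, eval_mul, eval_sub, eval_X, eval_C] at e2 ⊢
    have e3 : Q.eval ζ = ∑ k : Fin b, Q.coeff k * ζ ^ (k : ℕ) := by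
      rw [eval_eq_sum_range' hdeg, Finset.sum_range]
    have e4 : ∑ k : Fin b, Q.coeff k * (g i (ζ, y) * ζ ^ (k : ℕ) / ((ζ - t) * Q.eval ζ)) =
        (∑ k : Fin b, Q.coeff k * ζ ^ (k : ℕ)) * (g i (ζ, y) / ((ζ - t) * Q.eval ζ)) := by
      rw [Finset.sum_mul]
      exact Finset.sum_congr rfl fun k _ => by ring
    rw [e4, ← e3]
    have e5 := left_ne_zero_of_mul e2
    have e6 := right_ne_zero_of_mul e2
    field_simp
  intro i
  have h1 := hz (fun k => Q.coeff k) (fun i hi => by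
    rw [key, h0 i (Finset.mem_insert_of_mem hi), mul_zero]) i
  rw [key] at h1
  exact (mul_eq_zero.1 h1).resolve_left (by simp [Real.pi_ne_zero])

theorem sn_aux (n : ℕ) : ∀ (Y : Type) [NormedAddCommGroup Y] [NormedSpace ℂ Y]
    [FiniteDimensional ℂ Y], Module.finrank ℂ Y = n → ∀ p : Y, SNat p := by
  induction n using Nat.strong_induction_on with
  | _ n ih =>
  intro Y _ _ _ hn p ι g Ω hΩ hg
  obtain ⟨r, hr, hrΩ⟩ := Metric.mem_nhds_iff.1 hΩ
  by_cases h0 : ∀ i, ∀ y ∈ ball p r, g i y = 0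
  · exact ⟨∅, by filter_upwards [ball_mem_nhds p hr] with y hy _ i using h0 i y hy⟩
  push Not at h0
  obtain ⟨j, y₁, hy₁, hj⟩ := h0
  by_cases hp : g j p = 0
  swap
  · refine ⟨{j}, ?_⟩
    filter_upwards [(hg j p (mem_of_mem_nhds hΩ)).continuousAt.eventually_ne hp] with y hy h
    exact absurd (h j (Finset.mem_singleton_self j)) hy
  set η : Y := y₁ - p with hη
  have hη0 : η ≠ 0 := fun h => hj (by rw [sub_eq_zero.1 h, hp])
  obtain ⟨q, hq⟩ := Submodule.exists_isCompl (Submodule.span ℂ {η})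
  set T : (ℂ × q) ≃L[ℂ] Y := LinearEquiv.toContinuousLinearEquiv
    (((LinearEquiv.toSpanNonzeroSingleton ℂ Y η hη0).prodCongr (LinearEquiv.refl ℂ q)).trans
      (Submodule.prodEquivOfIsCompl _ _ hq)) with hT
  have hTa : ∀ t : ℂ, T (t, 0) = t • η := by
    intro t
    rw [hT]
    simp [Submodule.coe_prodEquivOfIsCompl']
  have hlt : Module.finrank ℂ q < n := by
    rw [← hn, ← T.toLinearEquiv.finrank_eq, Module.finrank_prod, Module.finrank_self]
    omega
  set Φ : ℂ × q → Y := fun x => p + T x with hΦ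
  have hΦa : ∀ x, AnalyticAt ℂ Φ x := fun x => analyticAt_const.add (T.analyticAt x)
  have hΦ0 : Φ (0, 0) = p := by simp [hΦ, Prod.mk_zero_zero]
  have hline : ¬ ∀ᶠ t in 𝓝 (0 : ℂ), g j (Φ (t, 0)) = 0 := by
    intro h
    have hD : Convex ℝ {t : ℂ | p + t • η ∈ ball p r} := by
      have : {t : ℂ | p + t • η ∈ ball p r} = ball 0 (r / ‖η‖) := by
        ext t
        simp [norm_smul, lt_div_iff₀ (norm_pos_iff.2 hη0)]
      rw [this]
      exact convex_ball _ _
    have ha : AnalyticOnNhd ℂ (fun t : ℂ => g j (Φ (t, 0))) {t : ℂ | p + t • η ∈ ball p r} := by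
      intro t ht
      refine (hg j _ (hrΩ ht)).comp_of_eq ((hΦa _).comp_of_eq
        (analyticAt_id.prod analyticAt_const) rfl) ?_
      simp only [hΦ, hTa]
    have := ha.eqOn_zero_of_preconnected_of_eventuallyEq_zero hD.isPreconnected
      (z₀ := 0) (by simpa using hr) h (x := 1) (by simpa [hη, dist_eq_norm] using hy₁)
    apply hj
    simpa [hΦ, hTa, hη] using this
  obtain ⟨S, hS⟩ := sn_step (ih _ hlt q rfl 0) (g := fun i x => g i (Φ x)) (Ω := Φ ⁻¹' Ω)
    ((hΦa _).continuousAt.preimage_mem_nhds (by rwa [hΦ0]))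
    (fun i x hx => (hg i _ hx).comp (hΦa x)) j hline
  refine ⟨S, ?_⟩
  have t1 : Tendsto (fun y => T.symm (y - p)) (𝓝 p) (𝓝 ((0 : ℂ), (0 : q))) := by
    have : ContinuousAt (fun y => T.symm (y - p)) p := by fun_prop
    simpa [ContinuousAt, Prod.mk_zero_zero] using this
  filter_upwards [t1.eventually hS] with y hy
  simpa [hΦ] using hy

theorem sn : SN := fun Y _ _ _ ι g Ω p hΩ hg => sn_aux _ Y rfl p ι g Ω hΩ hg

end Vale.Agent.P284Z.G
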