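import Vale.Agent.P284Z.Spec

/-!
# P284Z, block G: statements of the steps
-/

open scoped Topology
open Filter Set Metric

namespace Vale.Agent.P284Z.G

open Vale.Agent.P272.K

/-- A family of functions analytic on a common neighbourhood has the same zeros, near the point, as a
finite subfamily. -/
def SN : Prop :=
  ∀ (Y : Type) [NormedAddCommGroup Y] [NormedSpace ℂ Y] [FiniteDimensional ℂ Y] (ι : Type)
    (g : ι → Y → ℂ) (Ω : Set Y) (p : Y), Ω ∈ 𝓝 p → (∀ i, AnalyticOnNhd ℂ (g i) Ω) →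
    ∃ T : Finset ι, ∀ᶠ y in 𝓝 p, (∀ i ∈ T, g i y = 0) → ∀ i, g i y = 0

/-- A single valued analytic set whose projection is Zariski dense is an analytic graph. -/
def GR : Prop :=
  ∀ (Y : Type) [NormedAddCommGroup Y] [NormedSpace ℂ Y] [FiniteDimensional ℂ Y] (e m : ℕ)
    (F : Fin m → Y × Cm e → ℂ) (W : Set (Y × Cm e)) (x : Y × Cm e),
    (∀ i, AnalyticAt ℂ (F i) x) → (∀ᶠ y in 𝓝 x, y ∈ W ↔ ∀ i, F i y = 0) → x ∈ W →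
    (∀ w t t', (w, t) ∈ W → (w, t') ∈ W → t = t') →
    (∀ N : Y → ℂ, AnalyticAt ℂ N x.1 → (∀ᶠ y in 𝓝 x, y ∈ W → N y.1 = 0) →
      ∀ᶠ w in 𝓝 x.1, N w = 0) →
    ∃ h : Y → Cm e, AnalyticAt ℂ h x.1 ∧ h x.1 = x.2 ∧ ∀ᶠ w in 𝓝 x.1, (w, h w) ∈ W

/-- Uniform isolation off the zero set of an analytic function. -/
def UI : Prop :=
  ∀ (X : Type) [NormedAddCommGroup X] [NormedSpace ℂ X] [FiniteDimensional ℂ X] (e m : ℕ)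
    (U : Set X) (G : Fin m → X × Cm e → ℂ) (x₁ : X), IsOpen U → IsPreconnected U → x₁ ∈ U →
    (∀ s, ∀ x ∈ U, AnalyticAt ℂ (G s) (x, 0)) →
    (∀ᶠ t in 𝓝 (0 : Cm e), (∀ s, G s (x₁, t) = 0) → t = 0) →
    ∃ h : X → ℂ, AnalyticOnNhd ℂ h U ∧ (∃ x ∈ U, h x ≠ 0) ∧ ∀ x ∈ U, h x ≠ 0 →
      ∀ᶠ y in 𝓝 ((x, 0) : X × Cm e), (∀ s, G s y = 0) → y.2 = 0

/-- a flow box of the relation `R` centred at `x₀`, inside `V` -/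
def Box {n : ℕ} (R : Cm n → Cm n → Prop) (d q : ℕ) (x₀ : Cm n) (V : Set (Cm n)) : Prop :=
  ∃ (Ψ : OpenPartialHomeomorph (Cm n) (Cm d × Cm q)) (r : ℝ), 0 < r ∧ Ψ.target = ball 0 r ∧
    x₀ ∈ Ψ.source ∧ Ψ x₀ = 0 ∧ Ψ.source ⊆ V ∧ AnalyticOnNhd ℂ Ψ Ψ.source ∧
    AnalyticOnNhd ℂ Ψ.symm (ball 0 r) ∧
    ∀ x ∈ Ψ.source, ∀ y ∈ Ψ.source, R x y ↔ (Ψ x).2 = (Ψ y).2

/-- An analytic equivalence relation has flow boxes off the zero set of an analytic function. -/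
def LOC : Prop :=
  ∀ (n m : ℕ) (U : Set (Cm n)) (G : Fin m → Cm n × Cm n → ℂ) (R : Cm n → Cm n → Prop),
    IsOpen U → IsPreconnected U → U.Nonempty → (∀ s, AnalyticOnNhd ℂ (G s) (U ×ˢ U)) →
    (∀ x ∈ U, ∀ y ∈ U, R x y ↔ ∀ s, G s (x, y) = 0) → (∀ x ∈ U, R x x) →
    (∀ x y, R x y → R y x) →
    ∃ (d q : ℕ) (h : Cm n → ℂ), d + q = n ∧ AnalyticOnNhd ℂ h U ∧ (∃ x ∈ U, h x ≠ 0) ∧
      ∀ x₀ ∈ U, h x₀ ≠ 0 → ∀ V ∈ 𝓝 x₀,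
        (∀ x ∈ V, ∀ y ∈ V, ∀ z ∈ V, R x y → R y z → R x z) → Box R d q x₀ V

end Vale.Agent.P284Z.G
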