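import Vale.Agent.P284Z.G.UIa
import Vale.Agent.P284Z.G.Sk

/-!
# P284Z, block G: uniform isolation
-/

open scoped Topology
open Filter Set Metric Module Asymptotics

noncomputable section

namespace Vale.Agent.P284Z.G

open Vale.Agent.P272.K Vale.Agent.P298.H941

variable {X : Type} [NormedAddCommGroup X] [NormedSpace ℂ X]

/-- the class modulo an ideal of germs -/
def piJ {T : Type} [NormedAddCommGroup T] [NormedSpace ℂ T] (I : Ideal (O T)) :
    An T →ₗ[ℂ] O T ⧸ I :=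
  (Ideal.Quotient.mkₐ ℂ I).toLinearMap ∘ₗ (Ideal.Quotient.mkₐ ℂ (nu T)).toLinearMap

theorem piJ_surj {T : Type} [NormedAddCommGroup T] [NormedSpace ℂ T] (I : Ideal (O T)) :
    Function.Surjective (piJ I) :=
  (Ideal.Quotient.mk_surjective (I := I)).comp (Ideal.Quotient.mk_surjective (I := nu T))

theorem piJ_eq_zero {T : Type} [NormedAddCommGroup T] [NormedSpace ℂ T] {k : ℕ}
    {g : Fin k → T → ℂ} (hg : ∀ i, AnalyticAt ℂ (g i) 0) {f : An T} (h : piJ (Jd g hg) f = 0) :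
    ∃ a : Fin k → T → ℂ, (∀ j, AnalyticAt ℂ (a j) 0) ∧
      ∀ᶠ x in 𝓝 0, f.1 x = ∑ j, a j x * g j x :=
  (mk_mem_Jd hg f.2).1 (Ideal.Quotient.eq_zero_iff_mem.1 h)

/-- the jet data at the point where the zero is isolated -/
theorem ui_data {e m : ℕ} {g : Fin m → Cm e → ℂ} (hg : ∀ s, AnalyticAt ℂ (g s) 0)
    (hiso : ∀ᶠ t in 𝓝 (0 : Cm e), (∀ s, g s t = 0) → t = 0) :
    ∃ (μ p : ℕ) (a : Fin p → Fin m → Cm e → ℂ), (∀ k s, AnalyticAt ℂ (a k s) 0) ∧
      Module.Finite ℂ (LinearMap.range (J (T := Cm e) μ)) ∧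
      LinearIndependent ℂ (fun k => jt μ fun t => ∑ s, a k s t * g s t) ∧
      finrank ℂ (LinearMap.range (J (T := Cm e) μ)) ≤ p + μ := by
  have h1 := P298.H983.isoFin_pi e m g hg hiso
  set μ := finrank ℂ (O (Cm e) ⧸ Jd g hg)
  have hg' : ∀ b : Fin e, AnalyticAt ℂ (fun t : Cm e => t b ^ (μ + 1)) 0 := fun b =>
    (analyticAt_pi_iff.1 analyticAt_id b).pow _
  have h2 := P298.H983.isoFin_pi e e _ hg' (Eventually.of_forall fun t ht =>
    funext fun b => pow_eq_zero_iff (Nat.succ_ne_zero μ) |>.1 (ht b))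
  obtain ⟨h3, p, φ, h4, h5, h6⟩ := la (piJ (Jd g hg)) (piJ (Jd _ hg')) (J μ) (piJ_surj _)
    (piJ_surj _) fun f hf => by
      obtain ⟨a, ha, h⟩ := piJ_eq_zero hg' hf
      refine (jt_congr h).trans ((jt_eq_zero_iff
        (Finset.analyticAt_fun_sum _ fun b _ => (ha b).mul (hg' b))).2 fun ξ =>
          ⟨fun s => ∑ b, a b (s • ξ) * ξ b ^ (μ + 1), Finset.analyticAt_fun_sum _ fun b _ =>
            (an_line (ha b) ξ).mul analyticAt_const, Eventually.of_forall fun s => ?_⟩)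
      rw [Finset.mul_sum]
      refine Finset.sum_congr rfl fun b _ => ?_
      simp only [Pi.mul_apply, Pi.smul_apply, smul_eq_mul, mul_pow]
      ring
  choose a ha ha' using fun k => piJ_eq_zero hg (h4 k)
  refine ⟨μ, p, a, ha, h3, ?_, h6⟩
  have h7 : ∀ k, J μ (φ k) = jt μ fun t => ∑ s, a k s t * g s t := fun k => jt_congr (ha' k)
  simpa only [h7] using h5

/-- the estimate for one coordinate -/
theorem ui_one [FiniteDimensional ℂ X] {e m : ℕ} {U : Set X} {G : Fin m → X × Cm e → ℂ} {x₁ : X}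
    (hU : IsOpen U) (hc : IsPreconnected U) (hx₁ : x₁ ∈ U)
    (hG : ∀ s, ∀ x ∈ U, AnalyticAt ℂ (G s) (x, 0))
    (hiso : ∀ᶠ t in 𝓝 (0 : Cm e), (∀ s, G s (x₁, t) = 0) → t = 0) (b : Fin e) :
    ∃ (c : X → ℂ) (j : ℕ), AnalyticOnNhd ℂ c U ∧ (∃ x ∈ U, c x ≠ 0) ∧ ∀ x ∈ U, c x ≠ 0 →
      ∃ C : ℝ, ∀ᶠ y in 𝓝 ((x, 0) : X × Cm e), (∀ s, G s y = 0) →
        ‖y.2 b‖ ^ j ≤ C * ‖y.2‖ ^ (j + 1) := by
  have : CompleteSpace X := FiniteDimensional.complete ℂ X
  have sl : ∀ {F : X × Cm e → ℂ} {x : X}, AnalyticAt ℂ F (x, 0) →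
      AnalyticAt ℂ (fun t => F (x, t)) 0 := fun hF =>
    hF.comp_of_eq (analyticAt_const.prod analyticAt_id) rfl
  obtain ⟨μ, p, a, ha, hfin, hli, hrk⟩ := ui_data (fun s => sl (hG s x₁ hx₁)) hiso
  obtain ⟨L, hL, hLa⟩ := coords (X := X) (LinearMap.range (J (T := Cm e) μ))
  set F : Fin p → X × Cm e → ℂ := fun k y => ∑ s, a k s y.2 * G s y with hF
  have hFa : ∀ k, ∀ x ∈ U, AnalyticAt ℂ (F k) (x, 0) := fun k x hx =>
    Finset.analyticAt_fun_sum _ fun s _ => ((ha k s).comp_of_eq analyticAt_snd rfl).mul (hG s x hx)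
  have hta : ∀ i : ℕ, AnalyticAt ℂ (fun t : Cm e => t b ^ i) 0 := fun i =>
    (analyticAt_pi_iff.1 analyticAt_id b).pow _
  obtain ⟨c, d, hca, hda, hc0, hrel⟩ := dep2 hU hc hx₁ (a := μ + 1) (b := p) (by omega)
    (fun i _ => L (jt μ fun t : Cm e => t b ^ (i : ℕ))) (fun k x => L (jt μ fun t => F k (x, t)))
    (fun _ _ => analyticOnNhd_const)
    (fun k i x hx => hLa (fun x => jt μ fun t => F k (x, t)) x (jt_an (hFa k x hx)) i)
    (hli.map (f := L) (Submodule.disjoint_def.2 fun w hw hw' => hL w (Submodule.span_le.2 (by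
      rintro _ ⟨k, rfl⟩
      exact ⟨⟨_, sl (hFa k x₁ hx₁)⟩, rfl⟩) hw) hw'))
  set H : X × Cm e → ℂ := fun y => ∑ i, c i y.1 * y.2 b ^ (i : ℕ) + ∑ k, d k y.1 * F k y with hH
  have hHa : ∀ x ∈ U, AnalyticAt ℂ H (x, 0) := fun x hx =>
    (Finset.analyticAt_fun_sum _ fun i _ => ((hca i x hx).comp_of_eq analyticAt_fst rfl).mul
      ((hta i).comp_of_eq analyticAt_snd rfl)).add (Finset.analyticAt_fun_sum _ fun k _ =>
        ((hda k x hx).comp_of_eq analyticAt_fst rfl).mul (hFa k x hx))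
  have hH0 : ∀ x ∈ U, jt μ (fun t => H (x, t)) = 0 := by
    intro x hx
    refine hL _ ⟨⟨_, sl (hHa x hx)⟩, rfl⟩ ?_
    have e1 : (⟨_, sl (hHa x hx)⟩ : An (Cm e)) = ∑ i : Fin (μ + 1), c i x • (⟨_, hta i⟩ : An (Cm e)) +
        ∑ k, d k x • (⟨_, sl (hFa k x hx)⟩ : An (Cm e)) := by
      refine Subtype.ext (funext fun t => ?_)
      simp [hH]
    have e2 := congrArg (L ∘ₗ J μ) e1
    simp only [map_add, map_sum, map_smul] at e2
    exact e2.trans (hrel x hx)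
  obtain ⟨j, ⟨x₂, hx₂, hj⟩, hmin⟩ := wellFounded_lt.has_min {i | ∃ x ∈ U, c i x ≠ 0} hc0
  refine ⟨c j, j, hca j, ⟨x₂, hx₂, hj⟩, fun x hx h0 => ?_⟩
  set l := 𝓝 ((x, 0) : X × Cm e) ⊓ 𝓟 {y | ∀ s, G s y = 0}
  have hl : l ≤ 𝓝 (x, 0) := inf_le_left
  have hyU : ∀ᶠ y in l, y.1 ∈ U := hl (continuousAt_fst.eventually (hU.mem_nhds hx))
  have hpow : ∀ i : ℕ, (j : ℕ) + 1 ≤ i →
      (fun y : X × Cm e => ‖y.2‖ ^ i) =O[l] fun y => ‖y.2‖ ^ ((j : ℕ) + 1) := by
    intro i hi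
    have h1 : ∀ᶠ y in 𝓝 ((x, 0) : X × Cm e), ‖y.2‖ < 1 :=
      continuousAt_snd.norm.eventually_lt continuousAt_const (by simp)
    refine IsBigO.of_bound' ((h1.filter_mono hl).mono fun y hy => ?_)
    simp only [norm_pow, norm_norm]
    exact pow_le_pow_of_le_one (norm_nonneg _) (le_of_lt hy) hi
  have hO1 : ∀ {f : X → ℂ}, ContinuousAt f x → (fun y : X × Cm e => f y.1) =O[l] fun _ => (1 : ℝ) :=
    fun hf => ((hf.comp_of_eq continuousAt_fst rfl).tendsto.mono_left hl).isBigO_one ℝ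
  have h1 : H =O[l] fun y => ‖y.2‖ ^ ((j : ℕ) + 1) :=
    ((jt_bound (hHa x hx) (mem_of_superset (hU.mem_nhds hx) hH0)).mono hl).trans
      (hpow _ (by omega))
  have h2 : (fun y : X × Cm e => ∑ i ∈ Finset.univ.erase j, c i y.1 * y.2 b ^ (i : ℕ)) =O[l]
      fun y => ‖y.2‖ ^ ((j : ℕ) + 1) := by
    refine IsBigO.fun_sum fun i hi => ?_
    rcases lt_or_gt_of_ne (Finset.ne_of_mem_erase hi) with h | h
    · refine (isBigO_zero _ _).congr' (hyU.mono fun y hy => ?_) EventuallyEq.rfl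
      have : c i y.1 = 0 := by
        by_contra h3
        exact hmin i ⟨_, hy, h3⟩ h
      simp [this]
    · have h3 : (fun y : X × Cm e => y.2 b ^ (i : ℕ)) =O[l] fun y => ‖y.2‖ ^ (i : ℕ) :=
        (IsBigO.of_bound' (Eventually.of_forall fun y => by
          simpa using norm_le_pi_norm y.2 b)).pow _
      simpa using (hO1 (hca i x hx).continuousAt).mul (h3.trans (hpow i h))
  have h3 : (fun y : X × Cm e => y.2 b ^ (j : ℕ)) =O[l] fun y => ‖y.2‖ ^ ((j : ℕ) + 1) := by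
    have h4 := (hO1 ((hca j x hx).continuousAt.inv₀ h0)).mul (h1.sub h2)
    simp only [one_mul] at h4
    refine h4.congr' ?_ EventuallyEq.rfl
    filter_upwards [hl (continuousAt_fst.eventually ((hca j x hx).continuousAt.eventually_ne h0)),
      mem_inf_of_right (mem_principal_self _)] with y hy hy'
    have h5 : ∀ s, G s y = 0 := hy'
    have h6 : c j y.1 ≠ 0 := hy
    simp only [hH, hF, h5, mul_zero, Finset.sum_const_zero, add_zero]
    rw [← Finset.add_sum_erase _ _ (Finset.mem_univ j), add_sub_cancel_right, Pi.inv_apply,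
      inv_mul_cancel_left₀ h6]
  obtain ⟨C, hC⟩ := h3.bound
  refine ⟨C, (eventually_inf_principal.1 hC).mono fun y hy h => ?_⟩
  simpa using hy h

theorem exists_all_ne {U : Set X} (hc : IsPreconnected U) (hU : IsOpen U) (hne : U.Nonempty)
    {ι : Type} (s : Finset ι) {c : ι → X → ℂ} (ha : ∀ i, AnalyticOnNhd ℂ (c i) U)
    (h0 : ∀ i, ∃ x ∈ U, c i x ≠ 0) : ∃ x ∈ U, ∀ i ∈ s, c i x ≠ 0 := by
  induction s using Finset.cons_induction with
  | empty => exact ⟨_, hne.some_mem, by simp⟩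
  | cons i s hi ih =>
    obtain ⟨x, hx, h⟩ := ih
    by_contra hcon
    obtain ⟨y, hy, h'⟩ := h0 i
    refine h' ((ha i).eqOn_zero_of_preconnected_of_eventuallyEq_zero hc hx ?_ hy)
    filter_upwards [(Finset.eventually_all s).2 fun k hk =>
      (ha k x hx).continuousAt.eventually_ne (h k hk), hU.mem_nhds hx] with z hz hzU
    by_contra h1
    exact hcon ⟨z, hzU, (Finset.forall_mem_cons _ _).2 ⟨h1, hz⟩⟩

theorem ui : UI := by
  intro X _ _ _ e m U G x₁ hU hc hx₁ hG hiso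
  choose c j hca hc0 hb using ui_one hU hc hx₁ hG hiso
  refine ⟨fun x => ∏ b, c b x, fun x hx => Finset.analyticAt_fun_prod _ fun b _ => hca b x hx,
    ?_, fun x hx h0 => ?_⟩
  · obtain ⟨x, hx, h⟩ := exists_all_ne hc hU ⟨_, hx₁⟩ Finset.univ hca hc0
    exact ⟨x, hx, Finset.prod_ne_zero_iff.2 h⟩
  · choose C hC using fun b => hb b x hx (Finset.prod_ne_zero_iff.1 h0 b (Finset.mem_univ b))
    have h1 : ∀ b, ∀ᶠ y in 𝓝 ((x, 0) : X × Cm e), C b * ‖y.2‖ < 1 := fun b =>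
      (continuousAt_const.mul continuousAt_snd.norm).eventually_lt continuousAt_const (by simp)
    filter_upwards [eventually_all.2 hC, eventually_all.2 h1] with y hy hy' h
    by_contra hne
    have h2 := norm_pos_iff.2 hne
    refine lt_irrefl ‖y.2‖ ((pi_norm_lt_iff h2).2 fun b => ?_)
    refine lt_of_pow_lt_pow_left₀ (j b) h2.le ((hy b h).trans_lt ?_)
    rw [pow_succ', ← mul_assoc]
    exact mul_lt_of_lt_one_left (pow_pos h2 _) (hy' b)

end Vale.Agent.P284Z.G
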