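import Vale.Agent.P277.H762.L1a
import Vale.Agent.P298.H983.Null
import Vale.Agent.P267.H338.Riem

/-!
# P284Z, block G: a single valued analytic hypersurface graph is analytic
-/

open scoped Topology
open Filter Set Metric

noncomputable section

namespace Vale.Agent.P284Z.G

variable {Y : Type} [NormedAddCommGroup Y] [NormedSpace ℂ Y]

/-- the derivative in the first variable -/
def D1 (f : ℂ × Y → ℂ) (z : ℂ × Y) : ℂ := fderiv ℂ f z (1, 0)

theorem D1_an [CompleteSpace Y] {f : ℂ × Y → ℂ} {z : ℂ × Y} (hf : AnalyticAt ℂ f z) :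
    AnalyticAt ℂ (D1 f) z :=
  ((ContinuousLinearMap.apply ℂ ℂ ((1, 0) : ℂ × Y)).analyticAt _).comp hf.fderiv

theorem hasDerivAt_D1 {f : ℂ × Y → ℂ} {t : ℂ} {y : Y} (hf : AnalyticAt ℂ f (t, y)) :
    HasDerivAt (fun s => f (s, y)) (D1 f (t, y)) t :=
  hf.differentiableAt.hasFDerivAt.comp_hasDerivAt t
    ((hasDerivAt_id t).prodMk (hasDerivAt_const t y))

/-- a continuous simple root is differentiable -/
theorem diff_root [CompleteSpace Y] {f : ℂ × Y → ℂ} {τ : Y → ℂ} {y : Y}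
    (hf : AnalyticAt ℂ f (τ y, y)) (hD : D1 f (τ y, y) ≠ 0) (hc : ContinuousAt τ y)
    (h0 : ∀ᶠ w in 𝓝 y, f (τ w, w) = 0) : DifferentiableAt ℂ τ y := by
  set g : Y × ℂ → ℂ := fun q => f (q.2, q.1) with hg
  have hga : AnalyticAt ℂ g (y, τ y) := hf.comp_of_eq (analyticAt_snd.prod analyticAt_fst) rfl
  have h1 : HasDerivAt (fun s => g (y, s)) (fderiv ℂ g (y, τ y) (0, 1)) (τ y) :=
    hga.differentiableAt.hasFDerivAt.comp_hasDerivAt (τ y)
      ((hasDerivAt_const _ y).prodMk (hasDerivAt_id _))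
  have h2 : fderiv ℂ g (y, τ y) (0, 1) = D1 f (τ y, y) := h1.unique (hasDerivAt_D1 hf)
  have h3 : ∀ s : ℂ, fderiv ℂ g (y, τ y) (0, s) = s * D1 f (τ y, y) := by
    intro s
    rw [← h2, ← smul_eq_mul, ← map_smul]
    simp
  have hinv : (fderiv ℂ g (y, τ y) ∘L .inr ℂ Y ℂ).IsInvertible := by
    refine ContinuousLinearMap.IsInvertible.of_inverse
      (g := (D1 f (τ y, y))⁻¹ • ContinuousLinearMap.id ℂ ℂ) ?_ ?_
    · ext
      simp [h3, hD]
    · ext
      simp [h3, hD]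
  have hs := hga.hasStrictFDerivAt
  have t1 : Tendsto (fun w => (w, τ w)) (𝓝 y) (𝓝 (y, τ y)) := continuousAt_id.prodMk hc
  refine (hs.hasStrictFDerivAt_implicitFunctionOfProdDomain
    hinv).hasFDerivAt.differentiableAt.congr_of_eventuallyEq ?_
  filter_upwards [t1.eventually (hs.eventually_apply_eq_iff_implicitFunctionOfProdDomain hinv), h0]
    with w hw hw0
  exact (hw.1 (hw0.trans h0.self_of_nhds.symm)).symm

/-- the hypotheses at the point `y` -/
def G1 {m : ℕ} (F : Fin m → ℂ × Y → ℂ) (τ : Y → ℂ) (ρ : ℝ) (y : Y) : Prop :=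
  (‖τ y‖ ≤ ρ / 2 ∧ ∀ i, F i (τ y, y) = 0) ∧ ∀ t : ℂ, ‖t‖ < ρ →
    (∀ i, AnalyticAt ℂ (F i) (t, y)) ∧ ((∀ i, F i (t, y) = 0) → t = τ y)

variable {m : ℕ} {F : Fin m → ℂ × Y → ℂ} {τ : Y → ℂ} {ρ : ℝ} {p : Y}

theorem g1_cont (hρ : 0 < ρ) (H : ∀ᶠ y in 𝓝 p, G1 F τ ρ y) : ContinuousAt τ p := by
  refine (isCompact_closedBall (0 : ℂ) (ρ / 2)).tendsto_nhds_of_unique_mapClusterPt
    (H.mono fun y hy => mem_closedBall_zero_iff.2 hy.1.1) fun t ht hcl => ?_
  rw [mem_closedBall_zero_iff] at ht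
  obtain ⟨h1, h2⟩ := H.self_of_nhds.2 t (by linarith)
  refine h2 fun i => ?_
  by_contra hne
  have h3 := (h1 i).continuousAt.eventually_ne hne
  rw [nhds_prod_eq, eventually_prod_iff] at h3
  obtain ⟨a, ha, b, hb, hab⟩ := h3
  obtain ⟨y, hy1, hy2, hy3⟩ := ((hcl.frequently ha).and_eventually (hb.and H)).exists
  exact hab hy1 hy2 (hy3.1.2 i)

theorem g1_step [FiniteDimensional ℂ Y] (hρ : 0 < ρ) (H : ∀ᶠ y in 𝓝 p, G1 F τ ρ y) (h0 : τ p = 0)
    (j : Fin m) (hj : ¬ ∀ᶠ t in 𝓝 (0 : ℂ), F j (t, p) = 0) {f : ℂ × Y → ℂ}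
    (hf : AnalyticAt ℂ f (0, p)) (hf0 : ∀ᶠ y in 𝓝 p, f (τ y, y) = 0)
    (hD : ¬ ∀ᶠ y in 𝓝 p, D1 f (τ y, y) = 0) : AnalyticAt ℂ τ p := by
  have : CompleteSpace Y := FiniteDimensional.complete ℂ Y
  have hF : ∀ i, AnalyticAt ℂ (F i) (0, p) := (H.self_of_nhds.2 0 (by simpa using hρ)).1
  obtain ⟨b, u, hu, hu0, hb⟩ := P298.H983.exists_weier_form (f := fun t => F j (t, p))
    (AnalyticAt.comp_of_eq (hF j) (analyticAt_id.prod analyticAt_const) rfl) hj
  obtain ⟨ε₀, hε₀, hel⟩ := P277.H762.exists_elim (F := Fin.cons (D1 f) F) (p₁ := p)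
    (fun i => Fin.cases (D1_an hf) hF i) j.succ hu hu0 hb
  obtain ⟨k, N, hN, hNe⟩ := hel (min ε₀ ρ) (lt_min hε₀ hρ) (min_le_left _ _)
  have hc := g1_cont hρ H
  have t1 : Tendsto (fun w => (τ w, w)) (𝓝 p) (𝓝 (0, p)) := by
    rw [← h0]
    exact hc.prodMk continuousAt_id
  have h1 : ∀ᶠ y in 𝓝 p, D1 f (τ y, y) = 0 ↔ ∀ s, N s y = 0 := by
    have h2 : ∀ᶠ y in 𝓝 p, ‖τ y‖ < min ε₀ ρ :=
      hc.norm.eventually_lt continuousAt_const (by rw [h0, norm_zero]; exact lt_min hε₀ hρ)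
    filter_upwards [hNe, H, h2] with y hy hH h2
    rw [← hy]
    refine ⟨fun h => ⟨τ y, h2, fun i => Fin.cases h hH.1.2 i⟩, ?_⟩
    rintro ⟨t, ht, h⟩
    rw [← (hH.2 t (ht.trans_le (min_le_right _ _))).2 fun i => h i.succ]
    exact h 0
  obtain ⟨s, hs⟩ : ∃ s, ¬ ∀ᶠ y in 𝓝 p, N s y = 0 := by
    by_contra hcon
    push Not at hcon
    refine hD ?_
    filter_upwards [h1, eventually_all.2 hcon] with y hy hy' using hy.2 hy'
  obtain ⟨δ, hδ, hV⟩ := Metric.eventually_nhds_iff_ball.1 ((hN s).eventually_analyticAt.and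
    (h1.and (H.eventually_nhds.and (hf0.eventually_nhds.and
      (t1.eventually hf.eventually_analyticAt)))))
  have hNa : AnalyticOnNhd ℂ (N s) (ball p δ) := fun y hy => (hV y hy).1
  have hfr : ∀ y ∈ ball p δ, ∃ᶠ w in 𝓝 y, N s w ≠ 0 := by
    intro y hy hcon
    simp only [not_not] at hcon
    refine hs ?_
    filter_upwards [ball_mem_nhds p hδ] with w hw
    exact hNa.eqOn_zero_of_preconnected_of_eventuallyEq_zero (convex_ball p δ).isPreconnected hy
      hcon hw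
  obtain ⟨W, hW, hpW, hWV, U, hU, hUτ⟩ := P267.H338.riemann_extension (u := τ) (C := ρ / 2)
    isOpen_ball (mem_ball_self hδ) hNa.differentiableOn (hfr p (mem_ball_self hδ))
    (fun y hy => by
      obtain ⟨-, e2, e3, e4, e5⟩ := hV y hy.1
      exact (diff_root e5 (fun h => hy.2 (e2.1 h s)) (g1_cont hρ e3) e4).differentiableWithinAt)
    fun y hy _ => (hV y hy).2.2.1.self_of_nhds.1.1
  have h3 := P267.H338.eqOn_of_dense hW (fun y hy => hfr y (hWV hy)) hU.continuousOn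
    (fun y hy => (g1_cont hρ (hV y (hWV hy)).2.2.1).continuousWithinAt) hUτ
  refine (P268.analyticAt_of_differentiableOn hW hU hpW).congr ?_
  filter_upwards [hW.mem_nhds hpW] with y hy using h3 y hy

/-- a single valued analytic set of codimension one is an analytic graph -/
theorem gr1 [FiniteDimensional ℂ Y] (hρ : 0 < ρ) (H : ∀ᶠ y in 𝓝 p, G1 F τ ρ y) (h0 : τ p = 0) :
    AnalyticAt ℂ τ p := by
  have : CompleteSpace Y := FiniteDimensional.complete ℂ Y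
  have hF : ∀ i, AnalyticAt ℂ (F i) (0, p) := (H.self_of_nhds.2 0 (by simpa using hρ)).1
  obtain ⟨j, hj⟩ : ∃ j, ¬ ∀ᶠ t in 𝓝 (0 : ℂ), F j (t, p) = 0 := by
    by_contra hcon
    push Not at hcon
    have h1 : ∀ᶠ t in 𝓝 (0 : ℂ), t = 0 := by
      filter_upwards [eventually_all.2 hcon, ball_mem_nhds (0 : ℂ) hρ] with t ht ht'
      rw [← h0]
      exact (H.self_of_nhds.2 t (mem_ball_zero_iff.1 ht')).2 ht
    obtain ⟨t, ht, ht'⟩ := ((h1.filter_mono (nhdsWithin_le_nhds (s := {0}ᶜ))).and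
      self_mem_nhdsWithin).exists
    exact ht' ht
  have key : ∀ (b : ℕ) (f : ℂ × Y → ℂ), AnalyticAt ℂ f (0, p) → (∀ᶠ y in 𝓝 p, f (τ y, y) = 0) →
      analyticOrderAt (fun t => f (t, p)) 0 = b → AnalyticAt ℂ τ p := by
    intro b
    induction b with
    | zero =>
      intro f hf hf0 hb
      have h1 : AnalyticAt ℂ (fun t => f (t, p)) 0 :=
        hf.comp_of_eq (analyticAt_id.prod analyticAt_const) rfl
      have h2 := hf0.self_of_nhds
      rw [h0] at h2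
      exact absurd h2 (h1.analyticOrderAt_eq_zero.1 hb)
    | succ b ih =>
      intro f hf hf0 hb
      by_cases hD : ∀ᶠ y in 𝓝 p, D1 f (τ y, y) = 0
      · refine ih (D1 f) (D1_an hf) hD ?_
        have h1 : AnalyticAt ℂ (fun t => f (t, p)) 0 :=
          hf.comp_of_eq (analyticAt_id.prod analyticAt_const) rfl
        rw [← analyticOrderAt_deriv_of_pos h1 (n := b) (by rw [hb]; norm_cast)]
        refine analyticOrderAt_congr ?_
        have t1 : Tendsto (fun t : ℂ => (t, p)) (𝓝 0) (𝓝 (0, p)) :=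
          continuousAt_id.prodMk continuousAt_const
        filter_upwards [t1.eventually hf.eventually_analyticAt] with t ht
        exact (hasDerivAt_D1 ht).deriv.symm
      · exact g1_step hρ H h0 j hj hf hf0 hD
  have h1 : analyticOrderAt (fun t => F j (t, p)) 0 ≠ ⊤ := by
    rw [Ne, analyticOrderAt_eq_top]
    exact hj
  obtain ⟨b, hb⟩ := ENat.ne_top_iff_exists.1 h1
  exact key b (F j) (hF j) (H.mono fun y hy => hy.1.2 j) hb.symm

end Vale.Agent.P284Z.G
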