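import Vale.Agent.P284Z.G.SN
import Vale.Agent.P284Z.G.Gr1
import Vale.Agent.P284Z.H.Defs

/-!
# P284Z, block G: a single valued analytic set with Zariski dense projection is an analytic graph
-/

open scoped Topology
open Filter Set Metric

noncomputable section

namespace Vale.Agent.P284Z.G

open Vale.Agent.P272.K

theorem an_cons {Y : Type} [NormedAddCommGroup Y] [NormedSpace ℂ Y] {e : ℕ} {a : Y → ℂ}
    {b : Y → Cm e} {y : Y} (ha : AnalyticAt ℂ a y) (hb : AnalyticAt ℂ b y) :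
    AnalyticAt ℂ (fun w => (Fin.cons (a w) (b w) : Cm (e + 1))) y :=
  analyticAt_pi_iff.2 fun i => Fin.cases ha (fun i => analyticAt_pi_iff.1 hb i) i

theorem gr : GR := by
  intro Y _ _ _ e
  induction e with
  | zero =>
    intro m F W x hF hW hx _ hd
    have t1 : Tendsto (fun w => (w, x.2)) (𝓝 x.1) (𝓝 x) := continuousAt_id.prodMk continuousAt_const
    refine ⟨fun _ => x.2, analyticAt_const, rfl, ?_⟩
    have h1 : ∀ i, ∀ᶠ w in 𝓝 x.1, F i (w, x.2) = 0 := fun i =>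
      hd _ ((hF i).comp_of_eq (analyticAt_id.prod analyticAt_const) rfl) (by
        filter_upwards [hW] with y hy hyW
        rw [Subsingleton.elim x.2 y.2]
        exact hy.1 hyW i)
    filter_upwards [t1.eventually hW, eventually_all.2 h1] with w hw hw' using hw.2 hw'
  | succ e ih =>
    intro m F W x hF hW hx hs hd
    obtain ⟨w₀, t₀⟩ := x
    set κ : ℂ × (Y × Cm e) → Y × Cm (e + 1) := fun z => (z.2.1, Fin.cons (t₀ 0 + z.1) z.2.2)
      with hκ
    have hκa : ∀ z, AnalyticAt ℂ κ z := fun z => (analyticAt_fst.comp analyticAt_snd).prod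
      (an_cons (analyticAt_const.add analyticAt_fst) (analyticAt_snd.comp analyticAt_snd))
    set p₁ : Y × Cm e := (w₀, Fin.tail t₀) with hp₁
    have hκ0 : κ (0, p₁) = (w₀, t₀) := by simp [hκ, hp₁]
    have hinj : ∀ s s' w t t', κ (s, (w, t)) ∈ W → κ (s', (w, t')) ∈ W → s = s' ∧ t = t' := by
      intro s s' w t t' h h'
      have h2 := Fin.cons_inj.1 (hs _ _ _ h h')
      exact ⟨add_left_cancel h2.1, h2.2⟩
    have hG : ∀ i, AnalyticAt ℂ (fun z => F i (κ z)) (0, p₁) := fun i =>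
      (hF i).comp_of_eq (hκa _) hκ0
    have t1 : Tendsto κ (𝓝 (0, p₁)) (𝓝 (w₀, t₀)) := hκ0 ▸ (hκa _).continuousAt
    obtain ⟨ρ, hρ, hball⟩ := Metric.eventually_nhds_iff_ball.1 ((t1.eventually hW).and
      (eventually_all.2 fun i => (hG i).eventually_analyticAt))
    have hmem : ∀ s : ℂ, ‖s‖ < ρ → ∀ q ∈ ball p₁ ρ, (s, q) ∈ ball ((0 : ℂ), p₁) ρ := by
      intro s hs q hq
      rw [mem_ball, Prod.dist_eq, max_lt_iff]
      exact ⟨by simpa using hs, hq⟩
    obtain ⟨j, hj⟩ : ∃ j, ¬ ∀ᶠ s in 𝓝 (0 : ℂ), F j (κ (s, p₁)) = 0 := by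
      by_contra hcon
      push Not at hcon
      have h1 : ∀ᶠ s in 𝓝 (0 : ℂ), s = 0 := by
        filter_upwards [eventually_all.2 hcon, ball_mem_nhds (0 : ℂ) hρ] with s hs hs'
        exact (hinj s 0 _ _ _ ((hball _ (hmem s (mem_ball_zero_iff.1 hs') _
          (mem_ball_self hρ))).1.2 hs) (hκ0 ▸ hx)).1
      obtain ⟨t, ht, ht'⟩ := ((h1.filter_mono (nhdsWithin_le_nhds (s := {0}ᶜ))).and
        self_mem_nhdsWithin).exists
      exact ht' ht
    obtain ⟨b, u, hu, hu0, hb⟩ := P298.H983.exists_weier_form (f := fun s => F j (κ (s, p₁)))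
      (AnalyticAt.comp_of_eq (g := fun z => F j (κ z)) (f := fun s : ℂ => (s, p₁)) (hG j)
        (analyticAt_id.prod analyticAt_const) rfl) hj
    obtain ⟨ε₀, hε₀, hel⟩ := P277.H762.exists_elim hG j hu hu0 hb
    have hε : 0 < min ε₀ (ρ / 2) := lt_min hε₀ (half_pos hρ)
    have hερ : ∀ s : ℂ, ‖s‖ < min ε₀ (ρ / 2) → ‖s‖ < ρ := fun s hs =>
      (hs.trans_le (min_le_right _ _)).trans (half_lt_self hρ)
    obtain ⟨k, N, hN, hNe⟩ := hel _ hε (min_le_left _ _)
    obtain ⟨h', h'a, h'0, h'W⟩ := ih k N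
      {q | ∃ s : ℂ, ‖s‖ < min ε₀ (ρ / 2) ∧ κ (s, q) ∈ W} p₁ hN
      (by
        filter_upwards [hNe, ball_mem_nhds p₁ hρ] with q hq hq'
        rw [← hq]
        exact exists_congr fun s => and_congr_right fun hs => (hball _ (hmem s (hερ s hs) q hq')).1)
      ⟨0, by simpa using hε, hκ0 ▸ hx⟩
      (fun w t t' ⟨s, _, h⟩ ⟨s', _, h'⟩ => (hinj s s' w t t' h h').2)
      (fun N' hN' h => hd N' hN' (by
        have t2 : Tendsto (fun y : Y × Cm (e + 1) => (y.1, Fin.tail y.2)) (𝓝 (w₀, t₀)) (𝓝 p₁) :=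
          (continuous_fst.prodMk (continuous_pi fun i =>
            (continuous_apply i.succ).comp continuous_snd)).tendsto _
        have t3 : ∀ᶠ y : Y × Cm (e + 1) in 𝓝 (w₀, t₀), ‖y.2 0 - t₀ 0‖ < min ε₀ (ρ / 2) :=
          ContinuousAt.eventually_lt (by fun_prop) continuousAt_const (by simpa using hε)
        filter_upwards [t2.eventually h, t3] with y hy hy' hyW
        refine hy ⟨_, hy', ?_⟩
        simpa [hκ] using hyW))
    simp only [hp₁] at h'a h'0 h'W
    set τ : Y → ℂ := fun w => Classical.epsilon fun s => κ (s, (w, h' w)) ∈ W with hτ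
    have hτ1 : ∀ w s, κ (s, (w, h' w)) ∈ W → s = τ w := fun w s h =>
      (hinj _ _ _ _ _ h (Classical.epsilon_spec (p := fun s => κ (s, (w, h' w)) ∈ W) ⟨s, h⟩)).1
    have hτ0 : τ w₀ = 0 := (hτ1 w₀ 0 (by rw [h'0]; exact hκ0 ▸ hx)).symm
    have t4 : Tendsto (fun w => (w, h' w)) (𝓝 w₀) (𝓝 p₁) := by
      rw [hp₁, ← h'0]
      exact continuousAt_id.prodMk h'a.continuousAt
    have hτa : AnalyticAt ℂ τ w₀ := by
      refine gr1 (F := fun i z => F i (κ (z.1, (z.2, h' z.2)))) hρ ?_ hτ0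
      filter_upwards [h'W, t4.eventually (ball_mem_nhds p₁ hρ), h'a.eventually_analyticAt]
        with w ⟨s, hs, hsW⟩ hw hw'
      refine ⟨?_, fun t ht => ?_⟩
      · rw [← hτ1 w s hsW]
        exact ⟨(hs.trans_le (min_le_right _ _)).le, (hball _ (hmem s (hερ s hs) _ hw)).1.1 hsW⟩
      · obtain ⟨e1, e2⟩ := hball _ (hmem t ht _ hw)
        exact ⟨fun i => (e2 i).comp_of_eq (analyticAt_fst.prod (analyticAt_snd.prod
          (hw'.comp_of_eq analyticAt_snd rfl))) rfl, fun h => hτ1 w t (e1.2 h)⟩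
    refine ⟨fun w => Fin.cons (t₀ 0 + τ w) (h' w), an_cons (analyticAt_const.add hτa) h'a, ?_, ?_⟩
    · simp [hτ0, h'0]
    · filter_upwards [h'W] with w ⟨s, _, hsW⟩
      rw [← hτ1 w s hsW]
      exact hsW

/-- the statement used by block H -/
theorem graph : H.StGraph := by
  intro a e U S W x hU hS hW hx hs hd
  have hxU := hU.mem_nhds ((hW x).1 hx).1
  obtain ⟨T, hT⟩ := sn _ S (fun f => f.1) U x hxU fun f => hS f.1 f.2
  refine gr _ e T.card (fun i => (T.equivFin.symm i).1.1) W x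
    (fun i => hS _ (T.equivFin.symm i).1.2 x (mem_of_mem_nhds hxU)) ?_ hx hs fun N hN h => ?_
  · filter_upwards [hT, hxU] with y hy hyU
    rw [hW]
    refine ⟨fun h i => h.2 _ (T.equivFin.symm i).1.2, fun h => ⟨hyU, fun f hf => ?_⟩⟩
    refine hy (fun g hg => ?_) ⟨f, hf⟩
    simpa using h (T.equivFin ⟨g, hg⟩)
  · obtain ⟨r, hr, hNa⟩ := Metric.eventually_nhds_iff_ball.1 hN.eventually_analyticAt
    obtain ⟨w, hw⟩ := hd _ (h.and (continuousAt_fst.eventually (ball_mem_nhds x.1 hr)))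
    have h1 : ∀ᶠ w' in 𝓝 w, N w' = 0 ∧ w' ∈ ball x.1 r := by
      filter_upwards [mem_interior_iff_mem_nhds.1 hw] with w' ⟨y, hy, hy'⟩
      rw [← hy']
      exact ⟨hy.2.1 hy.1, hy.2.2⟩
    filter_upwards [ball_mem_nhds x.1 hr] with w' hw'
    exact AnalyticOnNhd.eqOn_zero_of_preconnected_of_eventuallyEq_zero hNa
      (convex_ball _ _).isPreconnected h1.self_of_nhds.2 (h1.mono fun _ h => h.1) hw'

end Vale.Agent.P284Z.G
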