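import Vale.Agent.P284Z.G.Loc
import Vale.Agent.P284Z.G.UI
import Vale.Agent.P284Z.G.Glob

/-!
# P284Z, block G: nice charts
-/

namespace Vale.Agent.P284Z

theorem stG : StG := G.stG_of G.sn (G.loc_of G.ui)

end Vale.Agent.P284Z
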