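import Vale.Agent.P284Z.G.Graph

/-!
# P284Z, block G: flow boxes of an analytic equivalence relation
-/

open scoped Topology
open Filter Set Metric

noncomputable section

namespace Vale.Agent.P284Z.G

open Vale.Agent.P272.K

/-- `0` is isolated in the slice of the class of `x` -/
def Iso {n e : ℕ} (R : Cm n → Cm n → Prop) (x : Cm n) (ι : Cm e →L[ℂ] Cm n) : Prop :=
  ∀ᶠ t in 𝓝 (0 : Cm e), R x (x + ι t) → t = 0

theorem Iso.inj {n e : ℕ} {R : Cm n → Cm n → Prop} {x : Cm n} {ι : Cm e →L[ℂ] Cm n}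
    (h : Iso R x ι) (hx : R x x) : Function.Injective ι := by
  rw [injective_iff_map_eq_zero]
  intro t ht
  have t1 : Tendsto (fun s : ℂ => s • t) (𝓝[≠] 0) (𝓝 0) := by
    have : ContinuousAt (fun s : ℂ => s • t) 0 := by fun_prop
    simpa using this.tendsto.mono_left nhdsWithin_le_nhds
  obtain ⟨s, hs, hs'⟩ := ((t1.eventually h).and self_mem_nhdsWithin).exists
  exact (smul_eq_zero.1 (hs (by simpa [ht] using hx))).resolve_left hs'

theorem exists_frame {n e : ℕ} {ι : Cm e →L[ℂ] Cm n} (h : Function.Injective ι) :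
    ∃ (d : ℕ) (A : (Cm d × Cm e) ≃L[ℂ] Cm n), d + e = n ∧ ∀ t, A (0, t) = ι t := by
  obtain ⟨q, hq⟩ := Submodule.exists_isCompl (LinearMap.range ι.toLinearMap)
  have h1 : Module.finrank ℂ q + e = n := by
    have := Submodule.finrank_add_eq_of_isCompl hq
    rw [LinearMap.finrank_range_of_inj h] at this
    simp only [Module.finrank_fin_fun] at this
    omega
  set j : Cm (Module.finrank ℂ q) ≃ₗ[ℂ] q := (Module.finBasis ℂ q).equivFun.symm
  set f : (Cm (Module.finrank ℂ q) × Cm e) →ₗ[ℂ] Cm n :=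
    (q.subtype ∘ₗ j.toLinearMap).coprod ι.toLinearMap with hf
  have hinj : Function.Injective f := by
    rw [injective_iff_map_eq_zero]
    rintro ⟨a, t⟩ h0
    have h2 : (j a : Cm n) + ι t = 0 := h0
    have h3 : (j a : Cm n) = 0 := by
      refine (Submodule.disjoint_def.1 hq.disjoint) _ ⟨-t, ?_⟩ (j a).2
      rw [map_neg]
      exact (eq_neg_of_add_eq_zero_left h2).symm
    rw [h3, zero_add] at h2
    rw [j.map_eq_zero_iff.1 (Subtype.ext h3), (injective_iff_map_eq_zero _).1 h t h2]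
    rfl
  refine ⟨_, (f.linearEquivOfInjective hinj (by simp [h1])).toContinuousLinearEquiv, h1,
    fun t => ?_⟩
  simp [hf]

/-- the flow box from the graph -/
theorem box_of {n d e : ℕ} {R : Cm n → Cm n → Prop} {x₀ : Cm n} {V : Set (Cm n)}
    (A : (Cm d × Cm e) ≃L[ℂ] Cm n) {r₀ : ℝ} (hr₀ : 0 < r₀) (hsymm : ∀ x y, R x y → R y x)
    (htr : ∀ x ∈ V, ∀ y ∈ V, ∀ z ∈ V, R x y → R y z → R x z)
    (hV : ∀ w ∈ ball (0 : Cm d × Cm e) r₀, x₀ + A w ∈ V)
    (hu : ∀ t t' : Cm e, ‖t‖ < r₀ → ‖t'‖ < r₀ → R (x₀ + A (0, t)) (x₀ + A (0, t')) → t = t')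
    {τ : Cm d × Cm e → Cm e} (hτ : AnalyticAt ℂ τ 0) (hτ0 : τ 0 = 0)
    (hW : ∀ᶠ w : Cm d × Cm e in 𝓝 0, R (x₀ + A (0, w.2)) (x₀ + A (w.1, τ w))) :
    Box R d e x₀ V := by
  have hs : ∀ᶠ w : Cm d × Cm e in 𝓝 0, ‖τ w‖ < r₀ :=
    hτ.continuousAt.norm.eventually_lt continuousAt_const (by simpa [hτ0] using hr₀)
  have t1 : Tendsto (fun t : Cm e => ((0, t) : Cm d × Cm e)) (𝓝 0) (𝓝 0) :=
    (continuous_const.prodMk continuous_id).tendsto 0
  have h1 : (fun t : Cm e => τ (0, t)) =ᶠ[𝓝 0] id := by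
    filter_upwards [t1.eventually hs, t1.eventually hW, ball_mem_nhds (0 : Cm e) hr₀]
      with t h1 h2 h3
    exact (hu _ _ (mem_ball_zero_iff.1 h3) h1 h2).symm
  have h2 : ∀ t, fderiv ℂ τ 0 (0, t) = t := by
    intro t
    have e1 : HasFDerivAt (fun t : Cm e => τ (0, t)) (fderiv ℂ τ 0 ∘L .inr ℂ (Cm d) (Cm e)) 0 :=
      HasFDerivAt.comp (f := fun t : Cm e => ((0, t) : Cm d × Cm e)) 0
        hτ.differentiableAt.hasFDerivAt (hasFDerivAt_prodMk_right 0 0)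
    exact DFunLike.congr_fun (e1.unique ((hasFDerivAt_id 0).congr_of_eventuallyEq h1)) t
  set Φ : Cm d × Cm e → Cm n := fun w => x₀ + A (w.1, τ w) with hΦ
  have hΦa : AnalyticAt ℂ Φ 0 :=
    analyticAt_const.add ((A.analyticAt _).comp (analyticAt_fst.prod hτ))
  have hΦ0 : Φ 0 = x₀ := by simp [hΦ, hτ0, Prod.mk_zero_zero]
  set L : (Cm d × Cm e) →L[ℂ] Cm n :=
    (A : _ →L[ℂ] _) ∘L ((ContinuousLinearMap.fst ℂ _ _).prod (fderiv ℂ τ 0)) with hL
  have hΦd : HasFDerivAt Φ L 0 :=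
    (A.hasFDerivAt.comp 0 (hasFDerivAt_fst.prodMk hτ.differentiableAt.hasFDerivAt)).const_add x₀
  have hLi : Function.Injective L := by
    rw [injective_iff_map_eq_zero]
    rintro ⟨a, t⟩ h0
    have h3 : (a, fderiv ℂ τ 0 (a, t)) = 0 := A.map_eq_zero_iff.1 h0
    obtain ⟨rfl, h4⟩ := Prod.mk_eq_zero.1 h3
    rw [h2] at h4
    rw [h4]
    rfl
  set L' : (Cm d × Cm e) ≃L[ℂ] Cm n := (L.toLinearMap.linearEquivOfInjective hLi
    A.toLinearEquiv.finrank_eq).toContinuousLinearEquiv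
  have hL' : fderiv ℂ Φ 0 = L' := by
    rw [hΦd.fderiv]
    rfl
  have hst : HasStrictFDerivAt Φ (L' : _ →L[ℂ] _) 0 := hL' ▸ hΦa.hasStrictFDerivAt
  set Φ₀ := hst.toOpenPartialHomeomorph Φ
  have hm : (0 : Cm d × Cm e) ∈ Φ₀.source := hst.mem_toOpenPartialHomeomorph_source
  have hsa : AnalyticAt ℂ Φ₀.symm (Φ 0) := Φ₀.analyticAt_symm' hm hΦa hL'
  obtain ⟨r, hr, hb⟩ := Metric.eventually_nhds_iff_ball.1 ((hΦa.continuousAt.eventually
    hsa.eventually_analyticAt).and (hΦa.eventually_analyticAt.and (hW.and (hs.and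
      ((Φ₀.open_source.eventually_mem hm).and (ball_mem_nhds (0 : Cm d × Cm e) hr₀))))))
  have hsrc : ∀ x ∈ (Φ₀.restrOpen _ (isOpen_ball (x := 0) (ε := r))).symm.source,
      Φ₀.symm x ∈ ball (0 : Cm d × Cm e) r ∧ Φ (Φ₀.symm x) = x := fun x hx =>
    ⟨hx.2, Φ₀.right_inv hx.1⟩
  have hn : ∀ w ∈ ball (0 : Cm d × Cm e) r, ‖w.2‖ < r₀ ∧ x₀ + A (0, w.2) ∈ V ∧ Φ w ∈ V := by
    intro w hw
    obtain ⟨-, -, -, e1, -, e2⟩ := hb w hw
    have e3 := mem_ball_zero_iff.1 e2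
    refine ⟨(norm_snd_le w).trans_lt e3, hV _ ?_, hV _ ?_⟩
    · simpa [hr₀] using (norm_snd_le w).trans_lt e3
    · simpa [e1] using (norm_fst_le w).trans_lt e3
  refine ⟨(Φ₀.restrOpen _ (isOpen_ball (x := 0) (ε := r))).symm, r, hr, ?_, ?_, ?_, fun x hx => ?_,
    fun x hx => ?_, fun w hw => (hb w hw).2.1, fun x hx y hy => ?_⟩
  · exact inter_eq_right.2 fun w hw => (hb w hw).2.2.2.2.1
  · rw [← hΦ0]
    exact (Φ₀.restrOpen _ isOpen_ball).map_source ⟨hm, mem_ball_self hr⟩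
  · rw [← hΦ0]
    exact Φ₀.left_inv hm
  · rw [← (hsrc x hx).2]
    exact (hn _ (hsrc x hx).1).2.2
  · have := (hb _ (hsrc x hx).1).1
    rwa [(hsrc x hx).2] at this
  · obtain ⟨x1, x2⟩ := hsrc x hx
    obtain ⟨y1, y2⟩ := hsrc y hy
    obtain ⟨a1, a2, a3⟩ := hn _ x1
    obtain ⟨b1, b2, b3⟩ := hn _ y1
    have c1 : R _ (Φ _) := (hb _ x1).2.2.1
    have c2 : R _ (Φ _) := (hb _ y1).2.2.1
    rw [x2] at a3 c1
    rw [y2] at b3 c2
    refine ⟨fun h => hu _ _ a1 b1 (htr _ a2 _ b3 _ b2 (htr _ a2 _ a3 _ b3 c1 h) (hsymm _ _ c2)),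
      fun h => ?_⟩
    have h' : (Φ₀.symm x).2 = (Φ₀.symm y).2 := h
    rw [h'] at c1
    exact htr _ a3 _ b2 _ b3 (hsymm _ _ c1) c2

theorem loc_of (hUI : UI) : LOC := by
  classical
  intro n m U G R hU hc hne hG hR hrefl hsymm
  set P : ℕ → Prop := fun k => ∃ x ∈ U, ∃ ι : Cm k →L[ℂ] Cm n, Iso R x ι with hP
  have hPn : ∀ k, P k → k ≤ n := fun k ⟨x, hx, ι, h⟩ => by
    simpa using LinearMap.finrank_le_finrank_of_injective (f := ι.toLinearMap) (h.inj (hrefl x hx))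
  have hP0 : P 0 := ⟨_, hne.some_mem, 0, Eventually.of_forall fun t _ => Subsingleton.elim _ _⟩
  obtain ⟨e, ⟨x₁, hx₁, ι, hι⟩, hmax⟩ : ∃ e, P e ∧ ¬ P (e + 1) :=
    ⟨Nat.findGreatest P n, Nat.findGreatest_spec (Nat.zero_le n) hP0, fun h =>
      Nat.findGreatest_is_greatest (Nat.lt_succ_self _) (hPn _ h) h⟩
  obtain ⟨d, A, hd, hA⟩ := exists_frame (hι.inj (hrefl _ hx₁))
  have hμ : ∀ y : Cm n × Cm e, AnalyticAt ℂ (fun y : Cm n × Cm e => (y.1, y.1 + ι y.2)) y :=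
    fun y => analyticAt_fst.prod (analyticAt_fst.add ((ι.analyticAt _).comp analyticAt_snd))
  have hμU : ∀ x ∈ U, ∀ᶠ y : Cm n × Cm e in 𝓝 (x, 0), (y.1, y.1 + ι y.2) ∈ U ×ˢ U := fun x hx =>
    (hμ _).continuousAt.eventually ((hU.prod hU).mem_nhds (by simp [hx]))
  obtain ⟨h, hh, hh0, hI⟩ := hUI (Cm n) e m U (fun s y => G s (y.1, y.1 + ι y.2)) x₁ hU hc hx₁
    (fun s x hx => (hG s (x, x) ⟨hx, hx⟩).comp_of_eq (hμ _) (by simp)) (by
      have t1 : Tendsto (fun t : Cm e => (x₁, t)) (𝓝 0) (𝓝 (x₁, 0)) :=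
        (continuous_const.prodMk continuous_id).tendsto 0
      filter_upwards [hι, t1.eventually (hμU _ hx₁)] with t ht ht' h0
      exact ht ((hR _ ht'.1 _ ht'.2).2 h0))
  refine ⟨d, e, h, hd, hh, hh0, fun x₀ hx₀ h0 V hV htr => ?_⟩
  obtain ⟨ρ, hρ, hb⟩ := Metric.eventually_nhds_iff_ball.1 ((hI x₀ hx₀ h0).and ((hμU x₀ hx₀).and
    ((continuousAt_fst (p := ((x₀, 0) : Cm n × Cm e))).eventually hV)))
  have hcA : ContinuousAt (fun w : Cm d × Cm e => x₀ + A w) 0 := by fun_prop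
  obtain ⟨r₀, hr₀, hb₀⟩ := Metric.eventually_nhds_iff_ball.1 ((hcA.eventually (ball_mem_nhds _ hρ)).and
    (ball_mem_nhds (0 : Cm d × Cm e) (half_pos hρ)))
  simp only [map_zero, add_zero] at hb₀
  have hm : ∀ w ∈ ball (0 : Cm d × Cm e) r₀, ∀ t : Cm e, ‖t‖ < ρ →
      (x₀ + A w, t) ∈ ball ((x₀, 0) : Cm n × Cm e) ρ := fun w hw t ht => by
    rw [mem_ball, Prod.dist_eq, max_lt_iff]
    exact ⟨(hb₀ w hw).1, by simpa using ht⟩
  have hUV : ∀ w ∈ ball (0 : Cm d × Cm e) r₀, x₀ + A w ∈ U ∧ x₀ + A w ∈ V := fun w hw =>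
    ⟨(hb _ (hm w hw 0 (by simpa using hρ))).2.1.1, (hb _ (hm w hw 0 (by simpa using hρ))).2.2⟩
  have hu : ∀ a t t', (a, t) ∈ ball (0 : Cm d × Cm e) r₀ → (a, t') ∈ ball (0 : Cm d × Cm e) r₀ →
      R (x₀ + A (a, t)) (x₀ + A (a, t')) → t = t' := by
    intro a t t' ht ht' hr
    have e1 : ‖t' - t‖ < ρ := by
      have f1 := (norm_snd_le (a, t)).trans_lt (mem_ball_zero_iff.1 (hb₀ _ ht).2)
      have f2 := (norm_snd_le (a, t')).trans_lt (mem_ball_zero_iff.1 (hb₀ _ ht').2)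
      linarith [norm_sub_le t' t]
    obtain ⟨e2, e3, -⟩ := hb _ (hm _ ht _ e1)
    have e4 : x₀ + A (a, t) + ι (t' - t) = x₀ + A (a, t') := by
      rw [← hA, add_assoc, ← map_add]
      simp
    exact (sub_eq_zero.1 (e2 ((hR _ e3.1 _ e3.2).1 (by rwa [← e4] at hr)))).symm
  have hs : ∀ y ∈ ball (0 : (Cm d × Cm e) × Cm e) r₀, ((0, y.1.2) : Cm d × Cm e) ∈ ball 0 r₀ ∧
      (y.1.1, y.2) ∈ ball (0 : Cm d × Cm e) r₀ := by
    intro y hy
    simp only [mem_ball_zero_iff, Prod.norm_def, max_lt_iff] at hy ⊢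
    exact ⟨⟨by simpa using hr₀, hy.1.2⟩, hy.1.1, hy.2⟩
  obtain ⟨τ, hτ, hτ0, hW⟩ := gr (Cm d × Cm e) e m
    (fun s y => G s (x₀ + A (0, y.1.2), x₀ + A (y.1.1, y.2)))
    {y | y ∈ ball 0 r₀ ∧ R (x₀ + A (0, y.1.2)) (x₀ + A (y.1.1, y.2))} 0
    (fun s => (hG s (x₀, x₀) ⟨hx₀, hx₀⟩).comp_of_eq
      ((analyticAt_const.add ((A.analyticAt _).comp (analyticAt_const.prod
        (analyticAt_snd.comp analyticAt_fst)))).prod (analyticAt_const.add ((A.analyticAt _).comp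
          ((analyticAt_fst.comp analyticAt_fst).prod analyticAt_snd))))
      (by simp [Prod.mk_zero_zero]))
    (by
      filter_upwards [ball_mem_nhds _ hr₀] with y hy
      rw [← hR _ (hUV _ (hs y hy).1).1 _ (hUV _ (hs y hy).2).1]
      exact and_iff_right hy)
    ⟨mem_ball_self hr₀, hrefl _ (hUV _ (mem_ball_self hr₀)).1⟩
    (fun w t t' h1 h2 => hu w.1 t t' (hs _ h1.1).2 (hs _ h2.1).2
      (htr _ (hUV _ (hs _ h1.1).2).2 _ (hUV _ (hs _ h1.1).1).2 _ (hUV _ (hs _ h2.1).2).2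
        (hsymm _ _ h1.2) h2.2))
    (fun N hN hNW => by
      obtain ⟨r₁, hr₁, hb₁⟩ := Metric.eventually_nhds_iff_ball.1 (hNW.and
        ((continuousAt_fst.eventually hN.eventually_analyticAt).and (ball_mem_nhds _ hr₀)))
      filter_upwards [ball_mem_nhds _ hr₁] with w hw
      obtain ⟨a, t⟩ := w
      have hw' : ‖a‖ < r₁ ∧ ‖t‖ < r₁ := by simpa [Prod.norm_def] using hw
      have hk : ((0, t), t) ∈ ball (0 : (Cm d × Cm e) × Cm e) r₁ := by
        simp [Prod.norm_def, hw'.2]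
      have hD : Convex ℝ {s : ℂ | ‖s • a‖ < r₁} := by
        simpa only [preimage, mem_ball_zero_iff] using
          (convex_ball (0 : Cm d) r₁).is_linear_preimage (f := fun s : ℂ => s • a)
            ⟨fun x y => add_smul x y a, fun c x => smul_assoc c x a⟩
      have han : AnalyticOnNhd ℂ (fun s : ℂ => N (s • a, t)) {s : ℂ | ‖s • a‖ < r₁} := fun s hs =>
        (hb₁ ((s • a, t), 0) (by simpa [Prod.norm_def, hr₁, hw'.2] using hs)).2.1.comp_of_eq
          ((analyticAt_id.smul analyticAt_const).prod analyticAt_const) rfl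
      set ι' : Cm (e + 1) →L[ℂ] Cm n := (A : _ →L[ℂ] _) ∘L
        (((ContinuousLinearMap.proj 0 : Cm (e + 1) →L[ℂ] ℂ).smulRight a).prod
          (ContinuousLinearMap.pi fun i : Fin e => ContinuousLinearMap.proj i.succ)) with hι'
      have e1 : ∀ u, x₀ + A (0, t) + ι' u = x₀ + A (u 0 • a, t + Fin.tail u) := by
        intro u
        have : ι' u = A (u 0 • a, Fin.tail u) := rfl
        rw [this, add_assoc, ← map_add]
        simp
      have e2 : ¬ Iso R (x₀ + A (0, t)) ι' := fun h =>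
        hmax ⟨_, (hUV _ (hs _ (hb₁ _ hk).2.2).1).1, ι', h⟩
      have e3 : ∀ᶠ u : Cm (e + 1) in 𝓝 0, ((u 0 • a, t), t + Fin.tail u) ∈
          ball (0 : (Cm d × Cm e) × Cm e) r₁ := by
        have : Continuous fun u : Cm (e + 1) => ((u 0 • a, t), t + Fin.tail u) :=
          (((continuous_apply 0).smul continuous_const).prodMk continuous_const).prodMk
            (continuous_const.add (continuous_pi fun i => continuous_apply _))
        refine this.continuousAt.eventually (isOpen_ball.mem_nhds ?_)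
        have e4 : Fin.tail (0 : Cm (e + 1)) = 0 := rfl
        simpa [e4] using hk
      have e5 : ∃ᶠ u : Cm (e + 1) in 𝓝 0, N (u 0 • a, t) = 0 ∧ u 0 ∈ ({0}ᶜ : Set ℂ) := by
        refine ((not_eventually.1 e2).and_eventually e3).mono fun u ⟨h1, h2⟩ => ?_
        rw [Classical.not_imp, e1] at h1
        obtain ⟨f1, -, f2⟩ := hb₁ _ h2
        refine ⟨f1 ⟨f2, h1.1⟩, fun (h3 : u 0 = 0) => h1.2 ?_⟩
        have f3 := hs _ f2
        simp only [h3, zero_smul] at f3 h1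
        have f4 := left_eq_add.1 (hu 0 _ _ f3.1 f3.2 h1.1)
        funext i
        exact Fin.cases h3 (fun i => congrFun f4 i) i
      have e6 : ∃ᶠ s in 𝓝[≠] (0 : ℂ), N (s • a, t) = 0 :=
        frequently_nhdsWithin_iff.2 (((continuous_apply 0).tendsto (0 : Cm (e + 1))).frequently e5)
      simpa using han.eqOn_zero_of_preconnected_of_frequently_eq_zero hD.isPreconnected
        (z₀ := 0) (by simpa using hr₁) e6 (x := 1) (by simpa using hw'.1))
  exact box_of A hr₀ hsymm htr (fun w hw => (hUV w hw).2) (fun t t' h1 h2 =>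
    hu 0 t t' (by simp [h1]) (by simp [h2])) hτ hτ0 (hW.mono fun w hw => hw.2)

end Vale.Agent.P284Z.G
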