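import Vale.Agent.P284Z.G.Gr1

/-!
# P284Z, block G: linear algebra and jets for the uniform isolation
-/

open scoped Topology
open Filter Set Metric Module Asymptotics

noncomputable section

namespace Vale.Agent.P284Z.G

/-! ### linear algebra -/

theorem la {A Q Q' M : Type} [AddCommGroup A] [Module ℂ A] [AddCommGroup Q] [Module ℂ Q]
    [AddCommGroup Q'] [Module ℂ Q'] [AddCommGroup M] [Module ℂ M] [Module.Finite ℂ Q]
    [Module.Finite ℂ Q'] (π : A →ₗ[ℂ] Q) (π' : A →ₗ[ℂ] Q') (J : A →ₗ[ℂ] M)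
    (hπ : Function.Surjective π) (hπ' : Function.Surjective π')
    (hk : ∀ a, π' a = 0 → J a = 0) :
    Module.Finite ℂ (LinearMap.range J) ∧ ∃ (p : ℕ) (φ : Fin p → A), (∀ k, π (φ k) = 0) ∧
      LinearIndependent ℂ (fun k => J (φ k)) ∧ finrank ℂ (LinearMap.range J) ≤ p + finrank ℂ Q := by
  obtain ⟨σ, hσ⟩ := π.exists_rightInverse_of_surjective (LinearMap.range_eq_top.2 hπ)
  obtain ⟨σ', hσ'⟩ := π'.exists_rightInverse_of_surjective (LinearMap.range_eq_top.2 hπ')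
  have h1 : LinearMap.range J ≤ LinearMap.range (J ∘ₗ σ') := by
    rintro _ ⟨a, rfl⟩
    refine ⟨π' a, ?_⟩
    have := hk (σ' (π' a) - a) (by rw [map_sub, sub_eq_zero]; exact DFunLike.congr_fun hσ' _)
    rwa [map_sub, sub_eq_zero] at this
  have hfin : Module.Finite ℂ (LinearMap.range J) := Submodule.finiteDimensional_of_le h1
  set K := (LinearMap.ker π).map J
  have hK : Module.Finite ℂ K := Submodule.finiteDimensional_of_le LinearMap.map_le_range
  set b := Module.finBasis ℂ K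
  choose φ hφ hφ' using fun k => (b k).2
  refine ⟨hfin, _, φ, hφ, ?_, ?_⟩
  · simp only [hφ']
    exact b.linearIndependent.map' K.subtype K.ker_subtype
  · have h2 : LinearMap.range J ≤ K ⊔ LinearMap.range (J ∘ₗ σ) := by
      rintro _ ⟨a, rfl⟩
      refine Submodule.mem_sup.2 ⟨J (a - σ (π a)), ⟨_, ?_, rfl⟩, _, ⟨π a, rfl⟩, by simp⟩
      rw [SetLike.mem_coe, LinearMap.mem_ker, map_sub, sub_eq_zero]
      exact (DFunLike.congr_fun hσ _).symm
    exact (Submodule.finrank_mono h2).trans ((Submodule.finrank_add_le_finrank_add_finrank _ _).trans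
      (Nat.add_le_add_left (LinearMap.finrank_range_le _) _))

variable {X : Type} [NormedAddCommGroup X] [NormedSpace ℂ X]

/-- coordinates on a finite dimensional space of functions are combinations of evaluations -/
theorem coords {Ω : Type} (V : Submodule ℂ (Ω → ℂ)) [Module.Finite ℂ V] :
    ∃ L : (Ω → ℂ) →ₗ[ℂ] (Fin (finrank ℂ V) → ℂ), (∀ w ∈ V, L w = 0 → w = 0) ∧
      ∀ (v : X → Ω → ℂ) (x : X), (∀ ω, AnalyticAt ℂ (fun x => v x ω) x) →
        ∀ i, AnalyticAt ℂ (fun x => L (v x) i) x := by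
  have h1 : Submodule.span ℂ (range fun ω : Ω => (LinearMap.proj ω ∘ₗ V.subtype : V →ₗ[ℂ] ℂ)) = ⊤ := by
    refine Submodule.span_eq_top_of_ne_zero fun z hz => ?_
    obtain ⟨ω, hω⟩ := Function.ne_iff.1 (fun h => hz (Subtype.ext h) : (z : Ω → ℂ) ≠ 0)
    exact ⟨_, ⟨ω, rfl⟩, hω⟩
  have h2 : ∀ ℓ : V →ₗ[ℂ] ℂ, ∃ L : (Ω → ℂ) →ₗ[ℂ] ℂ, (∀ w : V, L w = ℓ w) ∧
      ∀ (v : X → Ω → ℂ) (x : X), (∀ ω, AnalyticAt ℂ (fun x => v x ω) x) →
        AnalyticAt ℂ (fun x => L (v x)) x := by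
    intro ℓ
    have h3 : ℓ ∈ Submodule.span ℂ
      (range fun ω : Ω => (LinearMap.proj ω ∘ₗ V.subtype : V →ₗ[ℂ] ℂ)) := h1 ▸ Submodule.mem_top
    induction h3 using Submodule.span_induction with
    | mem _ h =>
      obtain ⟨ω, rfl⟩ := h
      exact ⟨LinearMap.proj ω, fun _ => rfl, fun v x h => h ω⟩
    | zero => exact ⟨0, fun _ => rfl, fun _ _ _ => analyticAt_const⟩
    | add _ _ _ _ h h' =>
      obtain ⟨L, e1, e2⟩ := h
      obtain ⟨L', f1, f2⟩ := h'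
      exact ⟨L + L', fun w => by simp [e1, f1], fun v x h => (e2 v x h).add (f2 v x h)⟩
    | smul c _ _ h =>
      obtain ⟨L, e1, e2⟩ := h
      exact ⟨c • L, fun w => by simp [e1], fun v x h => analyticAt_const.mul (e2 v x h)⟩
  choose L hL hL' using fun i => h2 ((Module.finBasis ℂ V).coord i)
  refine ⟨LinearMap.pi L, fun w hw h0 => ?_, fun v x h i => hL' i v x h⟩
  have : (⟨w, hw⟩ : V) = 0 := (Module.finBasis ℂ V).forall_coord_eq_zero_iff.1 fun i =>
    (hL i ⟨w, hw⟩).symm.trans (congrFun h0 i)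
  exact congrArg Subtype.val this

/-- too many analytic vectors satisfy an analytic relation -/
theorem dep0 {U : Set X} (hne : U.Nonempty) {D : ℕ} {κ : Type} [Fintype κ]
    (hκ : D < Fintype.card κ) (v : κ → X → Fin D → ℂ)
    (ha : ∀ k i, AnalyticOnNhd ℂ (fun x => v k x i) U) :
    ∃ c : κ → X → ℂ, (∀ k, AnalyticOnNhd ℂ (c k) U) ∧ (∃ k, ∃ x ∈ U, c k x ≠ 0) ∧
      ∀ x ∈ U, ∑ k, c k x • v k x = 0 := by
  have := hne.to_subtype
  let A : Subring (U → ℂ) :=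
    { carrier := {f | ∃ F : X → ℂ, AnalyticOnNhd ℂ F U ∧ ∀ x : U, f x = F x}
      mul_mem' := fun ⟨F, h1, h2⟩ ⟨G, h3, h4⟩ => ⟨F * G, h1.mul h3, fun x => by simp [h2, h4]⟩
      one_mem' := ⟨1, analyticOnNhd_const, fun _ => rfl⟩
      add_mem' := fun ⟨F, h1, h2⟩ ⟨G, h3, h4⟩ => ⟨F + G, h1.add h3, fun x => by simp [h2, h4]⟩
      zero_mem' := ⟨0, analyticOnNhd_const, fun _ => rfl⟩
      neg_mem' := fun ⟨F, h1, h2⟩ => ⟨-F, h1.neg, fun x => by simp [h2]⟩ }
  let w : κ → Fin D → A := fun k i => ⟨fun x => v k x i, _, ha k i, fun _ => rfl⟩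
  have h1 : ¬ LinearIndependent A w := fun h => by
    have := h.fintype_card_le_finrank
    rw [Module.finrank_fin_fun] at this
    omega
  obtain ⟨g, hg, k, hk⟩ := Fintype.not_linearIndependent_iff.1 h1
  choose c hc hc' using fun k => (g k).2
  refine ⟨c, hc, ⟨k, ?_⟩, fun x hx => funext fun i => ?_⟩
  · obtain ⟨x, hx⟩ := Function.ne_iff.1 (fun h => hk (Subtype.ext h) : (g k : U → ℂ) ≠ 0)
    exact ⟨x, x.2, by rwa [← hc']⟩
  · have h2 := congrFun (congrArg Subtype.val (congrFun hg i)) ⟨x, hx⟩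
    simpa [w, hc'] using h2

theorem dep2 {U : Set X} (hU : IsOpen U) (hc : IsPreconnected U) {x₁ : X} (hx₁ : x₁ ∈ U)
    {D a b : ℕ} (hD : D < a + b) (u : Fin a → X → Fin D → ℂ) (v : Fin b → X → Fin D → ℂ)
    (hu : ∀ k i, AnalyticOnNhd ℂ (fun x => u k x i) U)
    (hv : ∀ k i, AnalyticOnNhd ℂ (fun x => v k x i) U)
    (hi : LinearIndependent ℂ fun k => v k x₁) :
    ∃ (c : Fin a → X → ℂ) (d : Fin b → X → ℂ), (∀ k, AnalyticOnNhd ℂ (c k) U) ∧
      (∀ k, AnalyticOnNhd ℂ (d k) U) ∧ (∃ k, ∃ x ∈ U, c k x ≠ 0) ∧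
      ∀ x ∈ U, ∑ k, c k x • u k x + ∑ k, d k x • v k x = 0 := by
  obtain ⟨c, h1, ⟨k, x, hx, h2⟩, h3⟩ := dep0 ⟨x₁, hx₁⟩ (κ := Fin a ⊕ Fin b) (by simpa using hD)
    (Sum.elim u v) fun k => by cases k <;> simp [hu, hv]
  simp only [Fintype.sum_sum_type, Sum.elim_inl, Sum.elim_inr] at h3
  refine ⟨fun k => c (.inl k), fun k => c (.inr k), fun _ => h1 _, fun _ => h1 _, ?_, h3⟩
  by_contra hcon
  push Not at hcon
  cases k with
  | inl k => exact h2 (hcon k x hx)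
  | inr k =>
    have t1 : ContinuousAt (fun x k => v k x) x₁ := continuousAt_pi.2 fun k =>
      continuousAt_pi.2 fun i => (hv k i x₁ hx₁).continuousAt
    refine h2 ((h1 _).eqOn_zero_of_preconnected_of_eventuallyEq_zero hc hx₁ ?_ hx)
    filter_upwards [t1.eventually hi.eventually, hU.mem_nhds hx₁] with y hy hyU
    have h4 := h3 y hyU
    simp only [hcon _ y hyU, zero_smul, Finset.sum_const_zero, zero_add] at h4
    exact Fintype.linearIndependent_iff.1 hy _ h4 k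

/-! ### jets along lines -/

variable {T : Type} [NormedAddCommGroup T] [NormedSpace ℂ T]

theorem iter_D1 [CompleteSpace X] (k : ℕ) : ∀ {f : ℂ × X → ℂ} {t : ℂ} {y : X},
    AnalyticAt ℂ f (t, y) → AnalyticAt ℂ (D1^[k] f) (t, y) ∧
      iteratedDeriv k (fun s => f (s, y)) t = D1^[k] f (t, y) := by
  induction k with
  | zero => exact fun hf => ⟨hf, rfl⟩
  | succ k ih =>
    intro f t y hf
    rw [Function.iterate_succ_apply, iteratedDeriv_succ', ← (ih (D1_an hf)).2]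
    refine ⟨(ih (D1_an hf)).1, Filter.EventuallyEq.iteratedDeriv_eq k ?_⟩
    have t1 : Tendsto (fun s : ℂ => (s, y)) (𝓝 t) (𝓝 (t, y)) :=
      continuousAt_id.prodMk continuousAt_const
    filter_upwards [t1.eventually hf.eventually_analyticAt] with s hs
    exact (hasDerivAt_D1 hs).deriv

/-- the jets of order at most `μ` along the lines through the origin -/
def jt (μ : ℕ) (f : T → ℂ) (ω : Fin (μ + 1) × T) : ℂ :=
  iteratedDeriv ω.1 (fun s : ℂ => f (s • ω.2)) 0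

theorem an_line {f : T → ℂ} (hf : AnalyticAt ℂ f 0) (ξ : T) :
    AnalyticAt ℂ (fun s : ℂ => f (s • ξ)) 0 :=
  hf.comp_of_eq (analyticAt_id.smul analyticAt_const) (zero_smul _ _)

theorem jt_an [CompleteSpace X] {μ : ℕ} {F : X × T → ℂ} {x : X} (hF : AnalyticAt ℂ F (x, 0))
    (ω : Fin (μ + 1) × T) : AnalyticAt ℂ (fun x => jt μ (fun t => F (x, t)) ω) x := by
  have h1 : AnalyticAt ℂ (fun z : ℂ × X => F (z.2, z.1 • ω.2)) (0, x) :=
    hF.comp_of_eq (analyticAt_snd.prod (analyticAt_fst.smul analyticAt_const)) (by simp)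
  have t1 : AnalyticAt ℂ (fun y : X => ((0 : ℂ), y)) x := analyticAt_const.prod analyticAt_id
  refine (((iter_D1 ω.1 h1).1).comp_of_eq t1 rfl).congr ?_
  filter_upwards [t1.continuousAt.eventually h1.eventually_analyticAt] with y hy
  exact (iter_D1 ω.1 hy).2.symm

theorem jt_congr {μ : ℕ} {f g : T → ℂ} (h : f =ᶠ[𝓝 0] g) : jt μ f = jt μ g := by
  funext ω
  have t1 : Tendsto (fun s : ℂ => s • ω.2) (𝓝 0) (𝓝 0) := by
    have : ContinuousAt (fun s : ℂ => s • ω.2) 0 := by fun_prop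
    simpa using this.tendsto
  exact Filter.EventuallyEq.iteratedDeriv_eq _ (t1.eventually h)

theorem jt_eq_zero_iff {μ : ℕ} {f : T → ℂ} (hf : AnalyticAt ℂ f 0) : jt μ f = 0 ↔
    ∀ ξ : T, ∃ g : ℂ → ℂ, AnalyticAt ℂ g 0 ∧ ∀ᶠ s in 𝓝 (0 : ℂ), f (s • ξ) = s ^ (μ + 1) * g s := by
  have h1 := fun ξ => (natCast_le_analyticOrderAt_iff_iteratedDeriv_eq_zero (n := μ + 1)
    (an_line hf ξ)).symm.trans (natCast_le_analyticOrderAt (an_line hf ξ))
  simp only [sub_zero, smul_eq_mul] at h1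
  exact ⟨fun h ξ => (h1 ξ).1 fun i hi => congrFun h (⟨i, hi⟩, ξ),
    fun h => funext fun ω => (h1 ω.2).2 (h ω.2) _ ω.1.2⟩

/-- the jet map -/
def J (μ : ℕ) : P298.H941.An T →ₗ[ℂ] (Fin (μ + 1) × T → ℂ) where
  toFun f := jt μ f.1
  map_add' f g := funext fun ω =>
    iteratedDeriv_fun_add (an_line f.2 ω.2).contDiffAt (an_line g.2 ω.2).contDiffAt
  map_smul' c f := funext fun ω => iteratedDeriv_const_mul_field c fun s : ℂ => f.1 (s • ω.2)

/-- the Schwarz lemma with parameters -/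
theorem jt_bound {μ : ℕ} {H : X × T → ℂ} {x : X} (hH : AnalyticAt ℂ H (x, 0))
    (h0 : ∀ᶠ y in 𝓝 x, jt μ (fun t => H (y, t)) = 0) :
    H =O[𝓝 (x, 0)] fun y => ‖y.2‖ ^ (μ + 1) := by
  have h1 : ∀ᶠ y in 𝓝 ((x, 0) : X × T), ‖H y‖ < ‖H (x, 0)‖ + 1 :=
    hH.continuousAt.norm.eventually_lt continuousAt_const (lt_add_one _)
  obtain ⟨ρ, hρ, hb⟩ := Metric.eventually_nhds_iff_ball.1 (hH.eventually_analyticAt.and (h1.and
    ((continuousAt_fst (p := ((x, 0) : X × T))).eventually h0)))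
  refine IsBigO.of_bound ((‖H (x, 0)‖ + 1) / ρ ^ (μ + 1)) ?_
  filter_upwards [ball_mem_nhds _ hρ] with y hy
  obtain ⟨y, t⟩ := y
  rw [mem_ball, Prod.dist_eq, max_lt_iff, dist_zero_right] at hy
  have hm : ∀ t' : T, ‖t'‖ < ρ → (y, t') ∈ ball ((x, 0) : X × T) ρ := fun t' ht' => by
    rw [mem_ball, Prod.dist_eq, max_lt_iff, dist_zero_right]
    exact ⟨hy.1, ht'⟩
  obtain ⟨e1, -, e2⟩ := hb _ (hm 0 (by simpa using hρ))
  obtain ⟨g, hg, hg'⟩ := (jt_eq_zero_iff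
    (e1.comp_of_eq (analyticAt_const.prod analyticAt_id) rfl)).1 e2 t
  have e3 : H (y, (0 : ℂ) • t) = 0 := by simpa using hg'.self_of_nhds
  rcases eq_or_ne t 0 with rfl | ht
  · rw [smul_zero] at e3
    simp [e3]
  have ht' := norm_pos_iff.2 ht
  have hm' : ∀ s ∈ ball (0 : ℂ) (ρ / ‖t‖), (y, s • t) ∈ ball ((x, 0) : X × T) ρ := fun s hs =>
    hm _ (by rwa [mem_ball_zero_iff, lt_div_iff₀ ht', ← norm_smul] at hs)
  have e4 := Complex.dist_le_mul_div_pow_of_mapsTo_ball_of_isLittleO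
    (f := fun s : ℂ => H (y, s • t)) (c := 0) (z := 1) (R₁ := ρ / ‖t‖) (R₂ := ‖H (x, 0)‖ + 1)
    (n := μ) (fun s hs => ((hb _ (hm' s hs)).1.comp_of_eq (analyticAt_const.prod
      (analyticAt_id.smul analyticAt_const)) rfl).differentiableAt.differentiableWithinAt)
    (fun s hs => by
      rw [e3, mem_closedBall_zero_iff]
      exact (hb _ (hm' s hs)).2.1.le)
    (by
      have f1 : (fun s : ℂ => s ^ (μ + 1) * g s) =o[𝓝 0] fun s : ℂ => s ^ μ := by
        simpa using (isLittleO_pow_pow (Nat.lt_succ_self μ)).mul_isBigO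
          (hg.continuousAt.tendsto.isBigO_one ℂ)
      simp only [e3, sub_zero, ← norm_pow]
      exact (f1.congr' (hg'.mono fun s hs => hs.symm) EventuallyEq.rfl).norm_right)
    (by simpa [lt_div_iff₀ ht'] using hy.2)
  rw [e3, dist_zero_right, dist_zero_right, one_smul, norm_one] at e4
  refine e4.trans_eq ?_
  rw [Real.norm_of_nonneg (by positivity), one_div_div, div_pow]
  ring

end Vale.Agent.P284Z.G
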